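import Vale.Agent.P146.H713.Hess
import Vale.Agent.P146.H332.Fe

/-!
Gibbs measures over a finite measure space `(Ω, μ)`: the partition function
`Zm u = ∫ exp (k ∑_e S e w u e) dμ(w)`, its logarithm `lzm`, the averages `avm h`. The logarithm of
the partition function belongs to the classes `C11`, `Cv`, `H325.C2`, `R1.Sm`, `H785.C2`.
-/

open MeasureTheory ProbabilityTheory Filter Topology

namespace Vale.Agent.P146.H196

open Vale.Agent.P157.Lv Vale.Agent.P146.H425 Vale.Agent.P146.H325 Vale.Agent.P146.R1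

set_option linter.unusedSectionVars false

/-- Bounded measurable functions. -/
def Bm {Ω : Type} [MeasurableSpace Ω] (h : Ω → ℝ) : Prop :=
  Measurable h ∧ ∃ C : ℝ, 0 ≤ C ∧ ∀ w, |h w| ≤ C

section bm

variable {Ω : Type} [MeasurableSpace Ω] {h g : Ω → ℝ}

lemma Bm.meas (hh : Bm h) : Measurable h := hh.1

lemma Bm.bd (hh : Bm h) : ∃ C : ℝ, 0 ≤ C ∧ ∀ w, |h w| ≤ C := hh.2

lemma Bm.of {C : ℝ} (hm : Measurable h) (hb : ∀ w, |h w| ≤ C) : Bm h :=
  ⟨hm, |C|, abs_nonneg _, fun w => (hb w).trans (le_abs_self C)⟩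

lemma Bm.const (c : ℝ) : Bm (fun _ : Ω => c) := Bm.of measurable_const fun _ => le_rfl

lemma Bm.mul (hh : Bm h) (hg : Bm g) : Bm fun w => h w * g w := by
  obtain ⟨C, hC, h1⟩ := hh.2
  obtain ⟨D, hD, h2⟩ := hg.2
  refine ⟨hh.1.mul hg.1, C * D, mul_nonneg hC hD, fun w => ?_⟩
  rw [abs_mul]
  exact mul_le_mul (h1 w) (h2 w) (abs_nonneg _) hC

lemma Bm.add (hh : Bm h) (hg : Bm g) : Bm fun w => h w + g w := by
  obtain ⟨C, hC, h1⟩ := hh.2
  obtain ⟨D, hD, h2⟩ := hg.2
  exact ⟨hh.1.add hg.1, C + D, add_nonneg hC hD, fun w =>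
    (abs_add_le _ _).trans (add_le_add (h1 w) (h2 w))⟩

lemma Bm.const_mul (c : ℝ) (hh : Bm h) : Bm fun w => c * h w := (Bm.const c).mul hh

lemma Bm.sub (hh : Bm h) (hg : Bm g) : Bm fun w => h w - g w := by
  simpa [sub_eq_add_neg] using hh.add (hg.const_mul (-1))

lemma Bm.pow (hh : Bm h) (n : ℕ) : Bm fun w => h w ^ n := by
  induction n with
  | zero => simpa using Bm.const (Ω := Ω) 1
  | succ n ih => simpa [pow_succ] using ih.mul hh

lemma Bm.sum {K : Type*} (s : Finset K) {f : K → Ω → ℝ} (hf : ∀ i ∈ s, Bm (f i)) :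
    Bm fun w => ∑ i ∈ s, f i w := by
  classical
  induction s using Finset.induction_on with
  | empty => simpa using Bm.const (Ω := Ω) 0
  | insert a s ha ih =>
    simp only [Finset.sum_insert ha]
    exact (hf a (Finset.mem_insert_self a s)).add
      (ih fun i hi => hf i (Finset.mem_insert_of_mem hi))

lemma Bm.exp (hh : Bm h) : Bm fun w => Real.exp (h w) := by
  obtain ⟨C, hC, h1⟩ := hh.2
  refine Bm.of hh.1.exp (C := Real.exp C) fun w => ?_
  rw [abs_of_pos (Real.exp_pos _)]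
  exact Real.exp_le_exp.2 ((le_abs_self _).trans (h1 w))

lemma Bm.integrable {μ : Measure Ω} [IsFiniteMeasure μ] (hh : Bm h) : Integrable h μ := by
  obtain ⟨C, hC, h1⟩ := hh.2
  exact Integrable.of_bound hh.1.aestronglyMeasurable C
    (Filter.Eventually.of_forall fun w => by rw [Real.norm_eq_abs]; exact h1 w)

end bm

variable {ι : Type} [Fintype ι] [DecidableEq ι] {Ω : Type} [MeasurableSpace Ω]

/-- A finite measure which is not zero, and bounded measurable energies. -/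
structure GM (μ : Measure Ω) (S : ι → Ω → ℝ) (M0 : ℝ) : Prop where
  fin : IsFiniteMeasure μ
  ne : μ ≠ 0
  pos : 0 ≤ M0
  meas : ∀ e, Measurable (S e)
  bd : ∀ e w, |S e w| ≤ M0

variable (μ : Measure Ω) (k : ℝ) (S : ι → Ω → ℝ)

/-- the Boltzmann weight -/
noncomputable def ezm (u : ι → ℝ) (w : Ω) : ℝ := Real.exp (k * ∑ e, S e w * u e)

/-- the partition function -/
noncomputable def Zm (u : ι → ℝ) : ℝ := ∫ w, ezm k S u w ∂μ

/-- the Gibbs average -/
noncomputable def avm (h : Ω → ℝ) (u : ι → ℝ) : ℝ := (∫ w, ezm k S u w * h w ∂μ) / Zm μ k S u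

/-- the logarithm of the partition function -/
noncomputable def lzm (u : ι → ℝ) : ℝ := Real.log (Zm μ k S u)

/-- the power of the partition function -/
noncomputable def Zxm (x : ℝ) (u : ι → ℝ) : ℝ := Real.exp (x * lzm μ k S u)

variable {μ k S} {M0 : ℝ}

lemma GM.bS (hG : GM μ S M0) (e : ι) : Bm (S e) := Bm.of (hG.meas e) (hG.bd e)

/-- the bound of the energy -/
noncomputable def Km (ι : Type) [Fintype ι] (k M0 : ℝ) : ℝ := |k| * (Fintype.card ι * M0)

lemma GM.Km_nonneg (hG : GM μ S M0) (k : ℝ) : 0 ≤ Km ι k M0 := by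
  have := hG.pos
  unfold Km
  positivity

lemma GM.bE (hG : GM μ S M0) (k : ℝ) (u : ι → ℝ) : Bm fun w => k * ∑ e, S e w * u e := by
  refine (Bm.sum Finset.univ fun e _ => ?_).const_mul k
  simpa [mul_comm] using (hG.bS e).const_mul (u e)

lemma GM.abs_E (hG : GM μ S M0) (k : ℝ) (u : ι → ℝ) (w : Ω) :
    |k * ∑ e, S e w * u e| ≤ Km ι k M0 * ‖u‖ := by
  unfold Km
  rw [abs_mul, mul_assoc]
  refine mul_le_mul_of_nonneg_left ?_ (abs_nonneg k)
  refine (Finset.abs_sum_le_sum_abs _ _).trans ?_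
  calc ∑ e, |S e w * u e| ≤ ∑ _e : ι, M0 * ‖u‖ := by
        refine Finset.sum_le_sum fun e _ => ?_
        rw [abs_mul]
        exact mul_le_mul (hG.bd e w) (by rw [← Real.norm_eq_abs]; exact norm_le_pi_norm u e)
          (abs_nonneg _) hG.pos
    _ = Fintype.card ι * M0 * ‖u‖ := by
        rw [Finset.sum_const, Finset.card_univ, nsmul_eq_mul]
        ring

lemma ezm_pos (u : ι → ℝ) (w : Ω) : 0 < ezm k S u w := Real.exp_pos _

lemma GM.bez (hG : GM μ S M0) (k : ℝ) (u : ι → ℝ) : Bm (ezm k S u) := (hG.bE k u).exp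

lemma GM.int (hG : GM μ S M0) (k : ℝ) {h : Ω → ℝ} (hh : Bm h) (u : ι → ℝ) :
    Integrable (fun w => ezm k S u w * h w) μ :=
  have := hG.fin
  ((hG.bez k u).mul hh).integrable

lemma GM.Z_pos (hG : GM μ S M0) (k : ℝ) (u : ι → ℝ) : 0 < Zm μ k S u := by
  have := hG.fin
  have : NeZero μ := ⟨hG.ne⟩
  exact integral_exp_pos (hG.bez k u).integrable

lemma Zxm_pos (x : ℝ) (u : ι → ℝ) : 0 < Zxm μ k S x u := Real.exp_pos _

lemma GM.av_const (hG : GM μ S M0) (k c : ℝ) (u : ι → ℝ) : avm μ k S (fun _ => c) u = c := by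
  unfold avm
  rw [integral_mul_const, mul_comm, mul_div_assoc]
  have := (hG.Z_pos k u).ne'
  unfold Zm at this ⊢
  rw [div_self this, mul_one]

lemma GM.av_one (hG : GM μ S M0) (k : ℝ) (u : ι → ℝ) : avm μ k S (fun _ => 1) u = 1 :=
  hG.av_const k 1 u

lemma GM.av_add (hG : GM μ S M0) (k : ℝ) {h g : Ω → ℝ} (hh : Bm h) (hg : Bm g) (u : ι → ℝ) :
    avm μ k S (fun w => h w + g w) u = avm μ k S h u + avm μ k S g u := by
  unfold avm
  rw [← add_div, ← integral_add (hG.int k hh u) (hG.int k hg u)]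
  simp only [mul_add]

lemma GM.av_sub (hG : GM μ S M0) (k : ℝ) {h g : Ω → ℝ} (hh : Bm h) (hg : Bm g) (u : ι → ℝ) :
    avm μ k S (fun w => h w - g w) u = avm μ k S h u - avm μ k S g u := by
  unfold avm
  rw [← sub_div, ← integral_sub (hG.int k hh u) (hG.int k hg u)]
  simp only [mul_sub]

lemma av_mul (μ : Measure Ω) (k : ℝ) (S : ι → Ω → ℝ) (c : ℝ) (h : Ω → ℝ) (u : ι → ℝ) :
    avm μ k S (fun w => c * h w) u = c * avm μ k S h u := by
  unfold avm
  rw [← mul_div_assoc, ← integral_const_mul]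
  congr 1
  refine integral_congr_ae (Filter.Eventually.of_forall fun w => ?_)
  simp only
  ring

lemma GM.av_sum (hG : GM μ S M0) (k : ℝ) {K : Type*} (s : Finset K) {f : K → Ω → ℝ}
    (hf : ∀ i ∈ s, Bm (f i)) (u : ι → ℝ) :
    avm μ k S (fun w => ∑ i ∈ s, f i w) u = ∑ i ∈ s, avm μ k S (f i) u := by
  classical
  induction s using Finset.induction_on with
  | empty => simpa using hG.av_const k 0 u
  | insert a s ha ih =>
    simp only [Finset.sum_insert ha]
    rw [hG.av_add k (hf a (Finset.mem_insert_self a s))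
      (Bm.sum s fun i hi => hf i (Finset.mem_insert_of_mem hi)),
      ih fun i hi => hf i (Finset.mem_insert_of_mem hi)]

lemma GM.av_mono (hG : GM μ S M0) (k : ℝ) {h g : Ω → ℝ} (hh : Bm h) (hg : Bm g)
    (hle : ∀ w, h w ≤ g w) (u : ι → ℝ) : avm μ k S h u ≤ avm μ k S g u := by
  unfold avm
  refine div_le_div_of_nonneg_right ?_ (hG.Z_pos k u).le
  exact integral_mono (hG.int k hh u) (hG.int k hg u)
    fun w => mul_le_mul_of_nonneg_left (hle w) (ezm_pos u w).le

lemma GM.av_nonneg (hG : GM μ S M0) (k : ℝ) {h : Ω → ℝ} (hle : ∀ w, 0 ≤ h w) (u : ι → ℝ) :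
    0 ≤ avm μ k S h u :=
  div_nonneg (integral_nonneg fun w => mul_nonneg (ezm_pos u w).le (hle w)) (hG.Z_pos k u).le

lemma GM.abs_av_le (hG : GM μ S M0) (k : ℝ) {h : Ω → ℝ} (hm : Measurable h) {C : ℝ}
    (hC : ∀ w, |h w| ≤ C) (u : ι → ℝ) : |avm μ k S h u| ≤ C := by
  have hh : Bm h := Bm.of hm hC
  rw [abs_le]
  constructor
  · have := hG.av_mono k (h := fun _ => -C) (Bm.const _) hh (fun w => (abs_le.1 (hC w)).1) u
    rwa [hG.av_const] at this
  · have := hG.av_mono k (g := fun _ => C) hh (Bm.const _) (fun w => (abs_le.1 (hC w)).2) u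
    rwa [hG.av_const] at this

/-- Jensen -/
lemma GM.av_sq_le (hG : GM μ S M0) (k : ℝ) {h : Ω → ℝ} (hh : Bm h) (u : ι → ℝ) :
    avm μ k S h u ^ 2 ≤ avm μ k S (fun w => h w ^ 2) u := by
  have h1 := hG.av_nonneg k (h := fun w => (h w - avm μ k S h u) ^ 2) (fun w => sq_nonneg _) u
  have h2 : (fun w => (h w - avm μ k S h u) ^ 2) = fun w => (h w ^ 2 -
      (2 * avm μ k S h u) * h w) + avm μ k S h u ^ 2 := by
    funext w
    ring
  rw [h2, hG.av_add k ((hh.pow 2).sub (hh.const_mul _)) (Bm.const _), hG.av_sub k (hh.pow 2)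
    (hh.const_mul _), av_mul, hG.av_const] at h1
  nlinarith

/-! ### derivatives -/

lemma fd_ezm (k : ℝ) (S : ι → Ω → ℝ) (u : ι → ℝ) (w : Ω) : HasFDerivAt (fun u => ezm k S u w)
    (∑ e, (k * (ezm k S u w * S e w)) • (ContinuousLinearMap.proj e : (ι → ℝ) →L[ℝ] ℝ)) u := by
  unfold ezm
  have h1 : HasFDerivAt (fun u : ι → ℝ => k * ∑ e, S e w * u e)
      (k • ∑ e, S e w • (ContinuousLinearMap.proj e : (ι → ℝ) →L[ℝ] ℝ)) u := by
    refine HasFDerivAt.const_mul ?_ k
    refine HasFDerivAt.fun_sum fun e _ => ?_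
    exact (ContinuousLinearMap.proj (R := ℝ) (φ := fun _ : ι => ℝ) e).hasFDerivAt.const_mul (S e w)
  refine (h1.exp).congr_fderiv ?_
  rw [Finset.smul_sum, Finset.smul_sum]
  refine Finset.sum_congr rfl fun e _ => ?_
  rw [smul_smul, smul_smul]
  congr 1
  ring

lemma GM.fd_int (hG : GM μ S M0) (k : ℝ) {h : Ω → ℝ} (hh : Bm h) (u : ι → ℝ) :
    HasFDerivAt (fun u => ∫ w, ezm k S u w * h w ∂μ)
      (∑ e, (k * ∫ w, ezm k S u w * (h w * S e w) ∂μ) •
        (ContinuousLinearMap.proj e : (ι → ℝ) →L[ℝ] ℝ)) u := by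
  have := hG.fin
  obtain ⟨C, hC, hb⟩ := hh.2
  set F' : (ι → ℝ) → Ω → (ι → ℝ) →L[ℝ] ℝ := fun u w =>
    ∑ e, (k * (ezm k S u w * (h w * S e w))) • (ContinuousLinearMap.proj e : (ι → ℝ) →L[ℝ] ℝ)
    with hF'
  have hpr : ∀ e : ι, ‖(ContinuousLinearMap.proj e : (ι → ℝ) →L[ℝ] ℝ)‖ ≤ 1 := fun e => by
    refine ContinuousLinearMap.opNorm_le_bound _ zero_le_one fun v => ?_
    rw [one_mul, ContinuousLinearMap.proj_apply]
    exact norm_le_pi_norm v e
  have bE : ∀ (u : ι → ℝ) (e : ι), Bm fun w => k * (ezm k S u w * (h w * S e w)) := fun u e =>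
    ((hG.bez k u).mul (hh.mul (hG.bS e))).const_mul k
  have hn : ∀ v ∈ Metric.ball u 1, ∀ w, ‖F' v w‖ ≤ ∑ _e : ι, |k| *
      (Real.exp (Km ι k M0 * (‖u‖ + 1)) * (C * M0)) := by
    intro v hv w
    rw [Metric.mem_ball, dist_eq_norm] at hv
    have h1 : ‖v‖ ≤ ‖u‖ + 1 := by
      have := norm_add_le (v - u) u
      rw [sub_add_cancel] at this
      linarith
    refine (norm_sum_le _ _).trans (Finset.sum_le_sum fun e _ => ?_)
    rw [norm_smul, Real.norm_eq_abs]
    refine (mul_le_mul_of_nonneg_left (hpr e) (abs_nonneg _)).trans ?_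
    rw [mul_one, abs_mul, abs_mul, abs_mul]
    refine mul_le_mul_of_nonneg_left ?_ (abs_nonneg _)
    have h2 : |ezm k S v w| ≤ Real.exp (Km ι k M0 * (‖u‖ + 1)) := by
      rw [abs_of_pos (ezm_pos v w)]
      refine Real.exp_le_exp.2 ((le_abs_self _).trans ((hG.abs_E k v w).trans ?_))
      exact mul_le_mul_of_nonneg_left h1 (hG.Km_nonneg k)
    exact mul_le_mul h2 (mul_le_mul (hb w) (hG.bd e w) (abs_nonneg _) hC) (by positivity)
      (Real.exp_pos _).le
  have hm : AEStronglyMeasurable (F' u) μ := by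
    rw [hF']
    refine Finset.aestronglyMeasurable_fun_sum _ fun e _ => ?_
    exact (bE u e).meas.aestronglyMeasurable.smul_const _
  have key := hasFDerivAt_integral_of_dominated_of_fderiv_le (μ := μ)
    (F := fun u w => ezm k S u w * h w) (F' := F') (x₀ := u)
    (bound := fun _ => ∑ _e : ι, |k| * (Real.exp (Km ι k M0 * (‖u‖ + 1)) * (C * M0)))
    (s := Metric.ball u 1) (Metric.ball_mem_nhds u one_pos) ?_ (hG.int k hh u) hm ?_ ?_ ?_
  · refine key.congr_fderiv ?_
    rw [hF']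
    have hi : ∀ e ∈ (Finset.univ : Finset ι), Integrable (fun w =>
        (k * (ezm k S u w * (h w * S e w))) • (ContinuousLinearMap.proj e : (ι → ℝ) →L[ℝ] ℝ)) μ :=
      fun e _ => (bE u e).integrable.smul_const _
    rw [integral_finsetSum _ hi]
    refine Finset.sum_congr rfl fun e _ => ?_
    rw [integral_smul_const, integral_const_mul]
  · exact Filter.Eventually.of_forall fun v => (hG.int k hh v).aestronglyMeasurable
  · exact Filter.Eventually.of_forall fun w v hv => hn v hv w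
  · exact integrable_const _
  · refine Filter.Eventually.of_forall fun w v _ => ?_
    refine ((fd_ezm k S v w).mul_const (h w)).congr_fderiv ?_
    rw [hF', Finset.smul_sum]
    refine Finset.sum_congr rfl fun e _ => ?_
    rw [smul_smul]
    congr 1
    ring

lemma GM.fd_Z (hG : GM μ S M0) (k : ℝ) (u : ι → ℝ) : HasFDerivAt (Zm μ k S)
    (∑ e, (k * (Zm μ k S u * avm μ k S (S e) u)) •
      (ContinuousLinearMap.proj e : (ι → ℝ) →L[ℝ] ℝ)) u := by
  have h1 := hG.fd_int k (Bm.const 1) u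
  simp only [mul_one] at h1
  refine h1.congr_fderiv ?_
  refine Finset.sum_congr rfl fun e _ => ?_
  unfold avm
  rw [mul_div_cancel₀ _ (hG.Z_pos k u).ne']
  simp

lemma GM.fd_av (hG : GM μ S M0) (k : ℝ) {h : Ω → ℝ} (hh : Bm h) (u : ι → ℝ) :
    HasFDerivAt (avm μ k S h)
      (∑ e, (k * (avm μ k S (fun w => h w * S e w) u - avm μ k S h u * avm μ k S (S e) u)) •
        (ContinuousLinearMap.proj e : (ι → ℝ) →L[ℝ] ℝ)) u := by
  have hZ := (hG.Z_pos k u).ne'
  have h2 : HasFDerivAt (fun u => (∫ w, ezm k S u w * h w ∂μ) * (Zm μ k S u)⁻¹)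
    (∑ e, (k * (avm μ k S (fun w => h w * S e w) u - avm μ k S h u * avm μ k S (S e) u)) •
      (ContinuousLinearMap.proj e : (ι → ℝ) →L[ℝ] ℝ)) u := by
    have h3 : HasFDerivAt (fun u => (Zm μ k S u)⁻¹) (-(Zm μ k S u ^ 2)⁻¹ • (∑ e,
      (k * (Zm μ k S u * avm μ k S (S e) u)) •
        (ContinuousLinearMap.proj e : (ι → ℝ) →L[ℝ] ℝ))) u :=
      (hasDerivAt_inv hZ).comp_hasFDerivAt u (hG.fd_Z k u)
    refine ((hG.fd_int k hh u).mul h3).congr_fderiv ?_
    simp only [Finset.smul_sum]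
    rw [← Finset.sum_add_distrib]
    refine Finset.sum_congr rfl fun e _ => ?_
    rw [smul_smul, smul_smul, smul_smul, ← add_smul]
    congr 1
    unfold avm
    field_simp
    ring
  exact h2

lemma GM.pd_av (hG : GM μ S M0) (k : ℝ) (e : ι) {h : Ω → ℝ} (hh : Bm h) : PD e (avm μ k S h)
    (fun u => k * (avm μ k S (fun w => h w * S e w) u - avm μ k S h u * avm μ k S (S e) u)) :=
  pd_of_fd (hG.fd_av k hh) e

lemma GM.cont_av (hG : GM μ S M0) (k : ℝ) {h : Ω → ℝ} (hh : Bm h) : Continuous (avm μ k S h) :=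
  continuous_iff_continuousAt.2 fun u => (hG.fd_av k hh u).continuousAt

lemma GM.eg_av (hG : GM μ S M0) (k : ℝ) {h : Ω → ℝ} (hh : Bm h) : EG (avm μ k S h) := by
  obtain ⟨C, hC, hb⟩ := hh.2
  exact EG.of_bdd (hG.cont_av k hh).measurable (C := C) (hG.abs_av_le k hh.1 hb)

/-- the second diagonal derivative of `avm h` -/
noncomputable def avm2 (μ : Measure Ω) (k : ℝ) (S : ι → Ω → ℝ) (h : Ω → ℝ) (e : ι)
    (u : ι → ℝ) : ℝ :=
  k * (k * (avm μ k S (fun w => h w * S e w * S e w) u -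
      avm μ k S (fun w => h w * S e w) u * avm μ k S (S e) u) -
    (k * (avm μ k S (fun w => h w * S e w) u - avm μ k S h u * avm μ k S (S e) u) *
      avm μ k S (S e) u + avm μ k S h u * (k * (avm μ k S (fun w => S e w * S e w) u -
        avm μ k S (S e) u * avm μ k S (S e) u))))

theorem GM.c2_av (hG : GM μ S M0) (k : ℝ) {h : Ω → ℝ} (hh : Bm h) : H325.C2 (avm μ k S h)
    (fun e u => k * (avm μ k S (fun w => h w * S e w) u - avm μ k S h u * avm μ k S (S e) u))
    (avm2 μ k S h) := by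
  have b1 : ∀ e, Bm fun w => h w * S e w := fun e => hh.mul (hG.bS e)
  have b2 : ∀ e, Bm fun w => h w * S e w * S e w := fun e => (b1 e).mul (hG.bS e)
  have b3 : ∀ e, Bm fun w => S e w * S e w := fun e => (hG.bS e).mul (hG.bS e)
  have eS := fun e => hG.eg_av k (hG.bS e)
  have eh := hG.eg_av k hh
  have e1 := fun e => hG.eg_av k (b1 e)
  have e2 := fun e => hG.eg_av k (b2 e)
  have e3 := fun e => hG.eg_av k (b3 e)
  refine ⟨hG.fd_av k hh, fun e => ?_, eh, fun e => ?_, fun e => ?_, fun e => ?_, fun e => ?_⟩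
  · exact ((hG.pd_av k e (b1 e)).sub ((hG.pd_av k e hh).mul (hG.pd_av k e (hG.bS e)))).const_mul k
  · exact ((e1 e).sub (eh.mul (eS e))).const_mul k
  · unfold avm2
    exact (((((e2 e).sub ((e1 e).mul (eS e))).const_mul k).sub
      (((((e1 e).sub (eh.mul (eS e))).const_mul k).mul
        (eS e)).add (eh.mul (((e3 e).sub ((eS e).mul (eS e))).const_mul k))))).const_mul k
  · exact ((hG.cont_av k (b1 e)).sub ((hG.cont_av k hh).mul
      (hG.cont_av k (hG.bS e)))).const_mul k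
  · unfold avm2
    have c1 := hG.cont_av k (b2 e)
    have c2 := hG.cont_av k (b1 e)
    have c3 := hG.cont_av k (hG.bS e)
    have c4 := hG.cont_av k hh
    have c5 := hG.cont_av k (b3 e)
    fun_prop

/-! ### the logarithm of the partition function -/

lemma GM.Z_add (hG : GM μ S M0) (k : ℝ) (y w : ι → ℝ) :
    Zm μ k S (y + w) = Zm μ k S y *
      avm μ k S (fun x => Real.exp (k * ∑ e, S e x * w e)) y := by
  unfold avm
  rw [mul_div_cancel₀ _ (hG.Z_pos k y).ne']
  unfold Zm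
  refine integral_congr_ae (Filter.Eventually.of_forall fun x => ?_)
  simp only [ezm]
  rw [← Real.exp_add]
  congr 1
  simp only [Pi.add_apply, mul_add, Finset.sum_add_distrib]

lemma GM.av_dE (hG : GM μ S M0) (k : ℝ) (y w : ι → ℝ) :
    avm μ k S (fun x => k * ∑ e, S e x * w e) y = ∑ e, k * avm μ k S (S e) y * w e := by
  have : (fun x => k * ∑ e, S e x * w e) = fun x => k * ∑ e, w e * S e x := by
    funext x
    congr 1
    exact Finset.sum_congr rfl fun e _ => mul_comm _ _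
  rw [this, av_mul, hG.av_sum k _ fun e _ => (hG.bS e).const_mul (w e), Finset.mul_sum]
  refine Finset.sum_congr rfl fun e _ => ?_
  rw [av_mul]
  ring

lemma GM.av_exp_pos (hG : GM μ S M0) (k : ℝ) (y w : ι → ℝ) :
    0 < avm μ k S (fun x => Real.exp (k * ∑ e, S e x * w e)) y := by
  have h1 := hG.Z_add k y w
  have h2 := hG.Z_pos k (y + w)
  have h3 := hG.Z_pos k y
  rw [h1] at h2
  exact pos_of_mul_pos_right h2 h3.le

lemma GM.lz_add (hG : GM μ S M0) (k : ℝ) (y w : ι → ℝ) :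
    lzm μ k S (y + w) = lzm μ k S y +
      Real.log (avm μ k S (fun x => Real.exp (k * ∑ e, S e x * w e)) y) := by
  unfold lzm
  rw [hG.Z_add, Real.log_mul (hG.Z_pos k y).ne' (hG.av_exp_pos k y w).ne']

/-- Jensen -/
lemma GM.av_le_log (hG : GM μ S M0) (k : ℝ) (y w : ι → ℝ) :
    avm μ k S (fun x => k * ∑ e, S e x * w e) y ≤
      Real.log (avm μ k S (fun x => Real.exp (k * ∑ e, S e x * w e)) y) := by
  rw [Real.le_log_iff_exp_le (hG.av_exp_pos k y w)]
  set m := avm μ k S (fun x => k * ∑ e, S e x * w e) y with hm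
  have bE := hG.bE k w
  have h1 : avm μ k S (fun x => Real.exp m * (1 + ((k * ∑ e, S e x * w e) - m))) y ≤
      avm μ k S (fun x => Real.exp (k * ∑ e, S e x * w e)) y := by
    refine hG.av_mono k (((Bm.const 1).add (bE.sub (Bm.const m))).const_mul _) bE.exp
      (fun x => ?_) y
    have h2 := Real.add_one_le_exp ((k * ∑ e, S e x * w e) - m)
    have h3 : Real.exp (k * ∑ e, S e x * w e) =
        Real.exp m * Real.exp ((k * ∑ e, S e x * w e) - m) := by
      rw [← Real.exp_add]; congr 1; ring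
    rw [h3]
    exact mul_le_mul_of_nonneg_left (by linarith) (Real.exp_pos m).le
  rw [av_mul, hG.av_add k (Bm.const 1) (bE.sub (Bm.const m)), hG.av_const,
    hG.av_sub k bE (Bm.const m), hG.av_const, ← hm] at h1
  linarith

lemma GM.log_le_av (hG : GM μ S M0) (k : ℝ) (y w : ι → ℝ) :
    Real.log (avm μ k S (fun x => Real.exp (k * ∑ e, S e x * w e)) y) ≤
      avm μ k S (fun x => k * ∑ e, S e x * w e) y + 3 * (Km ι k M0 * ‖w‖) ^ 2 := by
  set M := Km ι k M0 * ‖w‖ with hM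
  have hM0 : 0 ≤ M := mul_nonneg (hG.Km_nonneg k) (norm_nonneg _)
  have hb : ∀ x, |k * ∑ e, S e x * w e| ≤ M := hG.abs_E k w
  have bE := hG.bE k w
  have hav : |avm μ k S (fun x => k * ∑ e, S e x * w e) y| ≤ M := hG.abs_av_le k bE.1 hb y
  rw [Real.log_le_iff_le_exp (hG.av_exp_pos k y w)]
  rcases le_or_gt M 1 with h1 | h1
  · have h2 : avm μ k S (fun x => Real.exp (k * ∑ e, S e x * w e)) y ≤
        avm μ k S (fun x => (1 + k * ∑ e, S e x * w e) + M ^ 2 * 3) y := by
      refine hG.av_mono k bE.exp (((Bm.const 1).add bE).add (Bm.const _)) (fun x => ?_) y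
      have h3 := exp_le_quad (k * ∑ e, S e x * w e)
      have h4 : Real.exp |k * ∑ e, S e x * w e| ≤ 3 := by
        calc Real.exp |k * ∑ e, S e x * w e| ≤ Real.exp 1 :=
              Real.exp_le_exp.2 ((hb x).trans h1)
          _ ≤ 3 := by linarith [Real.exp_one_lt_d9]
      have h5 : (k * ∑ e, S e x * w e) ^ 2 ≤ M ^ 2 := by
        rw [← sq_abs]
        exact pow_le_pow_left₀ (abs_nonneg _) (hb x) 2
      have h6 : (k * ∑ e, S e x * w e) ^ 2 * Real.exp |k * ∑ e, S e x * w e| ≤ M ^ 2 * 3 :=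
        mul_le_mul h5 h4 (Real.exp_pos _).le (by positivity)
      linarith
    have e1 : avm μ k S (fun x => (1 + k * ∑ e, S e x * w e) + M ^ 2 * 3) y =
        1 + avm μ k S (fun x => k * ∑ e, S e x * w e) y + M ^ 2 * 3 := by
      rw [hG.av_add k ((Bm.const 1).add bE) (Bm.const _), hG.av_add k (Bm.const 1) bE,
        hG.av_const, hG.av_const]
    rw [e1] at h2
    refine h2.trans ?_
    have := Real.add_one_le_exp (avm μ k S (fun x => k * ∑ e, S e x * w e) y + 3 * M ^ 2)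
    linarith
  · have h2 : avm μ k S (fun x => Real.exp (k * ∑ e, S e x * w e)) y ≤
        avm μ k S (fun _ => Real.exp M) y :=
      hG.av_mono k bE.exp (Bm.const _)
        (fun x => Real.exp_le_exp.2 ((le_abs_self _).trans (hb x))) y
    rw [hG.av_const] at h2
    refine h2.trans (Real.exp_le_exp.2 ?_)
    nlinarith [(abs_le.1 hav).1]

/-- The gradient of `lzm`. -/
noncomputable def Dm (μ : Measure Ω) (k : ℝ) (S : ι → Ω → ℝ) (e : ι) (u : ι → ℝ) : ℝ :=
  k * avm μ k S (S e) u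

/-- The Hessian of `lzm`. -/
noncomputable def Hm (μ : Measure Ω) (k : ℝ) (S : ι → Ω → ℝ) (e i : ι) (u : ι → ℝ) : ℝ :=
  k ^ 2 * (avm μ k S (fun w => S e w * S i w) u - avm μ k S (S e) u * avm μ k S (S i) u)

/-- The third derivatives `∂_i² D_e` of `lzm`. -/
noncomputable def Tm (μ : Measure Ω) (k : ℝ) (S : ι → Ω → ℝ) (e i : ι) (u : ι → ℝ) : ℝ :=
  k * avm2 μ k S (S e) i u

lemma GM.abs_D (hG : GM μ S M0) (k : ℝ) (e : ι) (u : ι → ℝ) : |Dm μ k S e u| ≤ Km ι k M0 := by
  have : Nonempty ι := ⟨e⟩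
  unfold Dm Km
  rw [abs_mul]
  refine mul_le_mul_of_nonneg_left ?_ (abs_nonneg k)
  refine (hG.abs_av_le k (hG.meas e) (hG.bd e) u).trans ?_
  have h1 : (1 : ℝ) ≤ Fintype.card ι := by exact_mod_cast Fintype.card_pos
  nlinarith [hG.pos]

/-- **The logarithm of the partition function is of class `C^{1,1}`.** -/
theorem GM.c11 (hG : GM μ S M0) (k : ℝ) :
    C11 (lzm μ k S) (Dm μ k S) (Km ι k M0) (3 * Km ι k M0 ^ 2) := by
  refine ⟨hG.Km_nonneg k, by positivity, fun y w => ?_, fun e => ?_, hG.abs_D k,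
    fun y w => ?_⟩
  · rw [hG.lz_add, add_sub_cancel_left, abs_le]
    have hb : ∀ x, |k * ∑ e, S e x * w e| ≤ Km ι k M0 * ‖w‖ := hG.abs_E k w
    have bE := hG.bE k w
    constructor
    · refine le_trans ?_ (hG.av_le_log k y w)
      exact (abs_le.1 (hG.abs_av_le k bE.1 hb y)).1
    · rw [Real.log_le_iff_le_exp (hG.av_exp_pos k y w)]
      have h2 : avm μ k S (fun x => Real.exp (k * ∑ e, S e x * w e)) y ≤
          avm μ k S (fun _ => Real.exp (Km ι k M0 * ‖w‖)) y :=
        hG.av_mono k bE.exp (Bm.const _)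
          (fun x => Real.exp_le_exp.2 ((le_abs_self _).trans (hb x))) y
      rwa [hG.av_const] at h2
  · exact ((hG.cont_av k (hG.bS e)).const_mul k).measurable
  · rw [hG.lz_add, add_sub_cancel_left]
    unfold Dm
    rw [← hG.av_dE k y w]
    have h1 := hG.av_le_log k y w
    have h2 := hG.log_le_av k y w
    rw [abs_le]
    constructor
    · have : 0 ≤ 3 * Km ι k M0 ^ 2 * ‖w‖ ^ 2 := by positivity
      linarith
    · rw [mul_pow] at h2
      linarith

/-- **The logarithm of the partition function is convex.** -/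
theorem GM.cv (hG : GM μ S M0) (k : ℝ) : Cv (lzm μ k S) := by
  intro a b ha hb hab w0 w1
  set y := a • w0 + b • w1 with hy
  have h : ∀ w, lzm μ k S y + avm μ k S (fun x => k * ∑ e, S e x * w e) y ≤
      lzm μ k S (y + w) := by
    intro w
    rw [hG.lz_add k y w]
    linarith [hG.av_le_log k y w]
  have h0 := h (w0 - y)
  have h1 := h (w1 - y)
  rw [add_sub_cancel] at h0 h1
  have e : a * avm μ k S (fun x => k * ∑ e, S e x * (w0 - y) e) y +
      b * avm μ k S (fun x => k * ∑ e, S e x * (w1 - y) e) y = 0 := by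
    rw [hG.av_dE, hG.av_dE, Finset.mul_sum, Finset.mul_sum, ← Finset.sum_add_distrib]
    refine Finset.sum_eq_zero fun e _ => ?_
    have : a * (w0 - y) e + b * (w1 - y) e = 0 := by
      simp only [hy, Pi.sub_apply, Pi.add_apply, Pi.smul_apply, smul_eq_mul]
      have : b = 1 - a := by linarith
      rw [this]
      ring
    linear_combination k * avm μ k S (S e) y * this
  have e2 : lzm μ k S y = a * lzm μ k S y + b * lzm μ k S y := by rw [← add_mul, hab, one_mul]
  have m0 := mul_le_mul_of_nonneg_left h0 ha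
  have m1 := mul_le_mul_of_nonneg_left h1 hb
  rw [mul_add] at m0 m1
  rw [e2]
  linarith

lemma GM.lip (hG : GM μ S M0) (k : ℝ) : Lip (lzm μ k S) := (hG.c11 k).lip.lip (hG.Km_nonneg k)

lemma GM.fd_lz (hG : GM μ S M0) (k : ℝ) (u : ι → ℝ) : HasFDerivAt (lzm μ k S)
    (∑ e, Dm μ k S e u • (ContinuousLinearMap.proj e : (ι → ℝ) →L[ℝ] ℝ)) u := by
  have hZ := (hG.Z_pos k u).ne'
  refine ((hG.fd_Z k u).log hZ).congr_fderiv ?_
  rw [Finset.smul_sum]
  refine Finset.sum_congr rfl fun e _ => ?_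
  rw [smul_smul]
  congr 1
  unfold Dm
  field_simp

lemma GM.c2D (hG : GM μ S M0) (k : ℝ) (e : ι) : H325.C2 (Dm μ k S e) (Hm μ k S e)
    (Tm μ k S e) :=
  ((hG.c2_av k (hG.bS e)).const_mul k).congr (fun u => rfl) (fun i u => by unfold Hm; ring)
    fun i u => rfl

lemma GM.c2F (hG : GM μ S M0) (k : ℝ) : H325.C2 (lzm μ k S) (Dm μ k S)
    (fun e => Hm μ k S e e) :=
  ⟨hG.fd_lz k, fun e => (hG.c2D k e).pd0 e, (hG.lip k).eg, fun e => (hG.c2D k e).eg,
    fun e => (hG.c2D k e).eg1 e, fun e => (hG.c2D k e).cont, fun e => (hG.c2D k e).c1 e⟩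

/-- **The logarithm of the partition function is smooth, with bounded derivatives.** -/
theorem GM.sm (hG : GM μ S M0) (k : ℝ) : Sm (lzm μ k S) (Dm μ k S) (Km ι k M0)
    (3 * Km ι k M0 ^ 2) (Hm μ k S) (Tm μ k S) (2 * Km ι k M0 ^ 2) := by
  refine ⟨hG.c11 k, hG.c2F k, hG.c2D k, fun e i u => ?_, fun e i u => ?_⟩
  · unfold Hm
    have : (fun w => S e w * S i w) = fun w => S i w * S e w := by funext w; ring
    rw [this]
    ring
  · have : Nonempty ι := ⟨e⟩
    have hM := hG.pos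
    have h1 : |avm μ k S (fun w => S e w * S i w) u| ≤ M0 * M0 :=
      hG.abs_av_le k ((hG.bS e).mul (hG.bS i)).meas (fun w => by
        rw [abs_mul]
        exact mul_le_mul (hG.bd e w) (hG.bd i w) (abs_nonneg _) hM) u
    have h2 : |avm μ k S (S e) u * avm μ k S (S i) u| ≤ M0 * M0 := by
      rw [abs_mul]
      exact mul_le_mul (hG.abs_av_le k (hG.meas e) (hG.bd e) u)
        (hG.abs_av_le k (hG.meas i) (hG.bd i) u) (abs_nonneg _) hM
    have h3 : |avm μ k S (fun w => S e w * S i w) u - avm μ k S (S e) u * avm μ k S (S i) u| ≤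
        2 * (M0 * M0) := (abs_sub _ _).trans (by linarith)
    have h4 : |k| * M0 ≤ Km ι k M0 := by
      unfold Km
      refine mul_le_mul_of_nonneg_left ?_ (abs_nonneg k)
      have h1 : (1 : ℝ) ≤ Fintype.card ι := by exact_mod_cast Fintype.card_pos
      nlinarith
    have h5 : (|k| * M0) * (|k| * M0) ≤ Km ι k M0 * Km ι k M0 :=
      mul_le_mul h4 h4 (mul_nonneg (abs_nonneg _) hM) (hG.Km_nonneg k)
    unfold Hm
    rw [abs_mul, abs_of_nonneg (sq_nonneg k)]
    calc k ^ 2 * |avm μ k S (fun w => S e w * S i w) u - avm μ k S (S e) u * avm μ k S (S i) u|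
        ≤ k ^ 2 * (2 * (M0 * M0)) := mul_le_mul_of_nonneg_left h3 (sq_nonneg k)
      _ = 2 * ((|k| * M0) * (|k| * M0)) := by rw [← sq_abs k]; ring
      _ ≤ 2 * Km ι k M0 ^ 2 := by nlinarith

theorem GM.c2 (hG : GM μ S M0) (k : ℝ) : H785.C2 (lzm μ k S) (Dm μ k S) (Hm μ k S) (Km ι k M0)
    (3 * Km ι k M0 ^ 2) (2 * Km ι k M0 ^ 2) := (hG.sm k).c2 (hG.cv k)

/-! ### powers of the partition function -/

lemma GM.eg_Zx (hG : GM μ S M0) (k x : ℝ) : EG (Zxm μ k S x) := (hG.lip k).exp_eg x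

lemma GM.fd_Zx (hG : GM μ S M0) (k x : ℝ) (u : ι → ℝ) : HasFDerivAt (Zxm μ k S x)
    (∑ e, (k * (x * (Zxm μ k S x u * avm μ k S (S e) u))) •
      (ContinuousLinearMap.proj e : (ι → ℝ) →L[ℝ] ℝ)) u := by
  have h1 : HasFDerivAt (fun u => Real.exp (x * lzm μ k S u))
    (∑ e, (k * (x * (Zxm μ k S x u * avm μ k S (S e) u))) •
      (ContinuousLinearMap.proj e : (ι → ℝ) →L[ℝ] ℝ)) u := by
    refine (((hG.fd_lz k u).const_mul x).exp).congr_fderiv ?_
    simp only [Finset.smul_sum]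
    refine Finset.sum_congr rfl fun e _ => ?_
    rw [smul_smul, smul_smul]
    congr 1
    unfold Zxm Dm
    ring
  exact h1

lemma GM.cont_Zx (hG : GM μ S M0) (k x : ℝ) : Continuous (Zxm μ k S x) :=
  continuous_iff_continuousAt.2 fun u => (hG.fd_Zx k x u).continuousAt

/-- the second diagonal derivative of `Zxm` -/
noncomputable def Zxm2 (μ : Measure Ω) (k : ℝ) (S : ι → Ω → ℝ) (x : ℝ) (e : ι)
    (u : ι → ℝ) : ℝ :=
  k * (x * ((k * (x * (Zxm μ k S x u * avm μ k S (S e) u))) * avm μ k S (S e) u +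
    Zxm μ k S x u * (k * (avm μ k S (fun w => S e w * S e w) u -
      avm μ k S (S e) u * avm μ k S (S e) u))))

theorem GM.c2_Zx (hG : GM μ S M0) (k x : ℝ) : H325.C2 (Zxm μ k S x)
    (fun e u => k * (x * (Zxm μ k S x u * avm μ k S (S e) u))) (Zxm2 μ k S x) := by
  have b3 : ∀ e, Bm fun w => S e w * S e w := fun e => (hG.bS e).mul (hG.bS e)
  have eS := fun e => hG.eg_av k (hG.bS e)
  have e3 := fun e => hG.eg_av k (b3 e)
  have eZ := hG.eg_Zx k x
  refine ⟨hG.fd_Zx k x, fun e => ?_, eZ, fun e => ?_, fun e => ?_, fun e => ?_, fun e => ?_⟩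
  · exact (((pd_of_fd (hG.fd_Zx k x) e).mul (hG.pd_av k e (hG.bS e))).const_mul x).const_mul k
  · exact ((eZ.mul (eS e)).const_mul x).const_mul k
  · unfold Zxm2
    exact ((((((eZ.mul (eS e)).const_mul x).const_mul k).mul (eS e)).add
      (eZ.mul (((e3 e).sub ((eS e).mul (eS e))).const_mul k))).const_mul x).const_mul k
  · exact (((hG.cont_Zx k x).mul (hG.cont_av k (hG.bS e))).const_mul x).const_mul k
  · unfold Zxm2
    have c1 := hG.cont_Zx k x
    have c3 := hG.cont_av k (hG.bS e)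
    have c5 := hG.cont_av k (b3 e)
    fun_prop

/-- `Z^x ⟨h⟩` with its first derivatives. -/
theorem GM.c2_Zav (hG : GM μ S M0) (k x : ℝ) {h : Ω → ℝ} (hh : Bm h) :
    ∃ F2, H325.C2 (fun u => Zxm μ k S x u * avm μ k S h u)
      (fun e u => k * (Zxm μ k S x u * (avm μ k S (fun w => h w * S e w) u -
        (1 - x) * (avm μ k S h u * avm μ k S (S e) u)))) F2 := by
  refine ⟨_, ((hG.c2_Zx k x).mul (hG.c2_av k hh)).congr (fun u => rfl) (fun e u => ?_)
    (fun e u => rfl)⟩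
  ring

end Vale.Agent.P146.H196
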