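import Vale.Agent.P146.H196.Gibm
import Vale.Agent.P146.H646.Blk

/-!
Replicas of a Gibbs measure over a finite measure space: `avR R h` is the average of
`h : (R → Ω) → ℝ` over the replicas indexed by the finite type `R`. Marginals, products, the
derivative in a coupling, Gaussian integration by parts, also conditionally on a set `K` of
coordinates.
-/

open MeasureTheory ProbabilityTheory Filter Topology

namespace Vale.Agent.P146.H196

open Vale.Agent.P157.Lv Vale.Agent.P146.H425 Vale.Agent.P146.H325 Vale.Agent.P146.R1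
  Vale.Agent.P146.H646

set_option linter.unusedSectionVars false

variable {ι : Type} [Fintype ι] [DecidableEq ι] {Ω : Type} [MeasurableSpace Ω]
  {R R' : Type} [Fintype R] [Fintype R']

variable {μ : Measure Ω} {k : ℝ} {S : ι → Ω → ℝ} {M0 : ℝ}

/-! ### the Gibbs measure -/

/-- the Gibbs measure -/
noncomputable def gm (μ : Measure Ω) (k : ℝ) (S : ι → Ω → ℝ) (u : ι → ℝ) : Measure Ω :=
  μ.withDensity fun w => ENNReal.ofReal (ezm k S u w / Zm μ k S u)

lemma GM.gm_prob (hG : GM μ S M0) (k : ℝ) (u : ι → ℝ) : IsProbabilityMeasure (gm μ k S u) := by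
  have := hG.fin
  have hZ := hG.Z_pos k u
  constructor
  unfold gm
  rw [withDensity_apply _ MeasurableSet.univ, Measure.restrict_univ,
    ← ofReal_integral_eq_lintegral_ofReal ((hG.bez k u).integrable.div_const _)
      (Filter.Eventually.of_forall fun w => div_nonneg (ezm_pos u w).le hZ.le),
    integral_div]
  have h1 : (∫ w, ezm k S u w ∂μ) = Zm μ k S u := rfl
  rw [h1, div_self hZ.ne', ENNReal.ofReal_one]

lemma GM.avm_eq (hG : GM μ S M0) (k : ℝ) (h : Ω → ℝ) (u : ι → ℝ) :
    avm μ k S h u = ∫ w, h w ∂(gm μ k S u) := by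
  have hZ := hG.Z_pos k u
  have hm : Measurable fun w => ENNReal.ofReal (ezm k S u w / Zm μ k S u) :=
    ENNReal.measurable_ofReal.comp ((hG.bez k u).meas.div_const _)
  unfold gm avm
  rw [integral_withDensity_eq_integral_toReal_smul hm
    (Filter.Eventually.of_forall fun w => ENNReal.ofReal_lt_top), ← integral_div]
  refine integral_congr_ae (Filter.Eventually.of_forall fun w => ?_)
  simp only [smul_eq_mul]
  rw [ENNReal.toReal_ofReal (div_nonneg (ezm_pos u w).le hZ.le)]
  ring

/-! ### replicas -/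

/-- the energies of replicas -/
def SR (R : Type) [Fintype R] (S : ι → Ω → ℝ) (e : ι) (w : R → Ω) : ℝ := ∑ a, S e (w a)

/-- the Gibbs average over replicas -/
noncomputable def avR (μ : Measure Ω) (k : ℝ) (S : ι → Ω → ℝ) (R : Type) [Fintype R]
    (h : (R → Ω) → ℝ) (u : ι → ℝ) : ℝ := avm (Measure.pi fun _ : R => μ) k (SR R S) h u

theorem GM.pi (hG : GM μ S M0) (R : Type) [Fintype R] :
    GM (Measure.pi fun _ : R => μ) (SR R S) (Fintype.card R * M0) := by
  have := hG.fin
  refine ⟨inferInstance, fun h => ?_, mul_nonneg (Nat.cast_nonneg _) hG.pos, fun e => ?_,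
    fun e w => ?_⟩
  · have h1 : (Measure.pi fun _ : R => μ) Set.univ = 0 := by rw [h]; simp
    rw [Measure.pi_univ, Finset.prod_eq_zero_iff] at h1
    obtain ⟨a, _, ha⟩ := h1
    exact hG.ne (Measure.measure_univ_eq_zero.1 ha)
  · exact Finset.measurable_sum _ fun a _ => (hG.meas e).comp (measurable_pi_apply a)
  · refine (Finset.abs_sum_le_sum_abs _ _).trans ?_
    calc ∑ a, |S e (w a)| ≤ ∑ _a : R, M0 := Finset.sum_le_sum fun a _ => hG.bd e (w a)
      _ = Fintype.card R * M0 := by rw [Finset.sum_const, Finset.card_univ, nsmul_eq_mul]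

lemma ezm_SR (k : ℝ) (S : ι → Ω → ℝ) (u : ι → ℝ) (w : R → Ω) :
    ezm k (SR R S) u w = ∏ a, ezm k S u (w a) := by
  unfold ezm SR
  rw [← Real.exp_sum]
  congr 1
  rw [← Finset.mul_sum, Finset.sum_comm]
  congr 1
  exact Finset.sum_congr rfl fun e _ => Finset.sum_mul _ _ _

lemma GM.Zm_pi (hG : GM μ S M0) (k : ℝ) (u : ι → ℝ) :
    Zm (Measure.pi fun _ : R => μ) k (SR R S) u = Zm μ k S u ^ Fintype.card R := by
  have := hG.fin
  unfold Zm
  simp only [ezm_SR]
  exact integral_fintype_prod_eq_pow _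

lemma GM.lzm_pi (hG : GM μ S M0) (k : ℝ) (u : ι → ℝ) :
    lzm (Measure.pi fun _ : R => μ) k (SR R S) u = Fintype.card R * lzm μ k S u := by
  unfold lzm
  rw [hG.Zm_pi, Real.log_pow]

/-- products over replicas -/
theorem GM.avR_prod (hG : GM μ S M0) (k : ℝ) (h : R → Ω → ℝ) (u : ι → ℝ) :
    avR μ k S R (fun w => ∏ a, h a (w a)) u = ∏ a, avm μ k S (h a) u := by
  have := hG.fin
  unfold avR
  unfold avm
  rw [hG.Zm_pi, ← Finset.card_univ, ← Finset.prod_const, Finset.prod_div_distrib]
  congr 1
  simp only [ezm_SR, ← Finset.prod_mul_distrib]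
  exact integral_fintype_prod_eq_prod (μ := fun _ : R => μ) fun a w => ezm k S u w * h a w

theorem GM.pi_gm (hG : GM μ S M0) (k : ℝ) (u : ι → ℝ) :
    Measure.pi (fun _ : R => gm μ k S u) = gm (Measure.pi fun _ : R => μ) k (SR R S) u := by
  have i1 := hG.gm_prob k u
  have i2 := (hG.pi R).gm_prob k u
  refine Measure.pi_eq fun s hs => ?_
  rw [← ENNReal.toReal_eq_toReal_iff' (measure_ne_top _ _)
    (ENNReal.prod_ne_top fun a _ => measure_ne_top _ _), ENNReal.toReal_prod]
  have h1 : (gm (Measure.pi fun _ : R => μ) k (SR R S) u (Set.univ.pi s)).toReal =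
      avR μ k S R (fun w => ∏ a, (s a).indicator (fun _ => (1 : ℝ)) (w a)) u := by
    unfold avR
    rw [(hG.pi R).avm_eq]
    have h2 : (fun w : R → Ω => ∏ a, (s a).indicator (fun _ => (1 : ℝ)) (w a)) =
        (Set.univ.pi s).indicator fun _ => (1 : ℝ) := by
      funext w
      by_cases hw : w ∈ Set.univ.pi s
      · rw [Set.indicator_of_mem hw]
        refine Finset.prod_eq_one fun a _ => ?_
        rw [Set.indicator_of_mem (hw a (Set.mem_univ a))]
      · rw [Set.indicator_of_notMem hw]
        have h3 : ∃ a, w a ∉ s a := by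
          by_contra hc
          exact hw fun a _ => by_contra fun h => hc ⟨a, h⟩
        obtain ⟨a, ha⟩ := h3
        exact Finset.prod_eq_zero (Finset.mem_univ a) (Set.indicator_of_notMem ha _)
    rw [h2, integral_indicator (MeasurableSet.univ_pi hs)]
    simp [Measure.real]
  rw [h1, hG.avR_prod]
  refine Finset.prod_congr rfl fun a _ => ?_
  rw [hG.avm_eq, integral_indicator (hs a)]
  simp [Measure.real]

theorem GM.avR_eq (hG : GM μ S M0) (k : ℝ) (h : (R → Ω) → ℝ) (u : ι → ℝ) :
    avR μ k S R h u = ∫ w, h w ∂(Measure.pi fun _ : R => gm μ k S u) := by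
  unfold avR
  rw [(hG.pi R).avm_eq, hG.pi_gm]

/-- marginals of a product of copies of a probability measure -/
lemma pi_marg {ν : Measure Ω} [IsProbabilityMeasure ν] (f : R' → R) (hf : Function.Injective f) :
    (Measure.pi fun _ : R => ν).map (fun w a => w (f a)) = Measure.pi fun _ : R' => ν := by
  classical
  symm
  refine Measure.pi_eq fun s hs => ?_
  have hm : Measurable fun (w : R → Ω) (a : R') => w (f a) :=
    measurable_pi_lambda _ fun a => measurable_pi_apply _
  rw [Measure.map_apply hm (MeasurableSet.univ_pi hs)]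
  have h1 : (fun (w : R → Ω) (a : R') => w (f a)) ⁻¹' (Set.univ.pi s) =
      Set.univ.pi fun b : R => if h : ∃ a, f a = b then s h.choose else Set.univ := by
    ext w
    simp only [Set.mem_preimage, Set.mem_univ_pi]
    constructor
    · intro hw b
      by_cases h : ∃ a, f a = b
      · rw [dif_pos h]
        have := hw h.choose
        rwa [h.choose_spec] at this
      · rw [dif_neg h]
        exact Set.mem_univ _
    · intro hw a
      have h : ∃ a', f a' = f a := ⟨a, rfl⟩
      have h2 := hw (f a)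
      rw [dif_pos h] at h2
      rwa [hf h.choose_spec] at h2
  rw [h1, Measure.pi_pi]
  have h2 : ∀ b ∈ (Finset.univ : Finset R), b ∉ Finset.univ.image f →
      ν (if h : ∃ a, f a = b then s h.choose else Set.univ) = 1 := by
    intro b _ hb
    have h : ¬ ∃ a, f a = b := by
      rintro ⟨a, ha⟩
      exact hb (Finset.mem_image.2 ⟨a, Finset.mem_univ _, ha⟩)
    rw [dif_neg h, measure_univ]
  rw [← Finset.prod_subset (Finset.subset_univ (Finset.univ.image f)) h2,
    Finset.prod_image fun a _ b _ h => hf h]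
  refine Finset.prod_congr rfl fun a _ => ?_
  have h : ∃ a', f a' = f a := ⟨a, rfl⟩
  rw [dif_pos h, hf h.choose_spec]

/-- functions of some of the replicas -/
theorem GM.avR_marg (hG : GM μ S M0) (k : ℝ) (f : R' → R) (hf : Function.Injective f)
    {h : (R' → Ω) → ℝ} (hh : Measurable h) (u : ι → ℝ) :
    avR μ k S R (fun w => h fun a => w (f a)) u = avR μ k S R' h u := by
  have i1 := hG.gm_prob k u
  rw [hG.avR_eq, hG.avR_eq, ← pi_marg f hf, integral_map]
  · exact (measurable_pi_lambda _ fun a => measurable_pi_apply _).aemeasurable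
  · exact hh.aestronglyMeasurable

/-- one replica -/
theorem GM.avR_one (hG : GM μ S M0) (k : ℝ) (a : R) (h : Ω → ℝ) (u : ι → ℝ) :
    avR μ k S R (fun w => h (w a)) u = avm μ k S h u := by
  classical
  have h1 := hG.avR_prod k (fun b => if b = a then h else fun _ => 1) u
  have h2 : (fun w : R → Ω => ∏ b, (if b = a then h else fun _ => 1) (w b)) =
      fun w => h (w a) := by
    funext w
    rw [Finset.prod_eq_single a]
    · simp
    · intro b _ hb
      simp [hb]
    · intro hc
      exact (hc (Finset.mem_univ a)).elim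
  rw [h2] at h1
  rw [h1, Finset.prod_eq_single a]
  · simp
  · intro b _ hb
    simp only [hb, if_false]
    exact hG.av_one k u
  · intro hc
    exact (hc (Finset.mem_univ a)).elim

/-- two different replicas are independent -/
theorem GM.avR_two (hG : GM μ S M0) (k : ℝ) {a b : R} (hab : a ≠ b) (h g : Ω → ℝ) (u : ι → ℝ) :
    avR μ k S R (fun w => h (w a) * g (w b)) u = avm μ k S h u * avm μ k S g u := by
  classical
  have h1 := hG.avR_prod k (fun c => if c = a then h else if c = b then g else fun _ => 1) u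
  have h2 : (fun w : R → Ω => ∏ c, (if c = a then h else if c = b then g else fun _ => 1) (w c)) =
      fun w => h (w a) * g (w b) := by
    funext w
    rw [Finset.prod_eq_mul a b hab]
    · simp [hab.symm]
    · intro c _ hc
      simp [hc.1, hc.2]
    · intro hc
      exact (hc (Finset.mem_univ a)).elim
    · intro hc
      exact (hc (Finset.mem_univ b)).elim
  rw [h2] at h1
  rw [h1, Finset.prod_eq_mul a b hab]
  · simp [hab.symm]
  · intro c _ hc
    simp only [hc.1, hc.2, if_false]
    exact hG.av_one k u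
  · intro hc
    exact (hc (Finset.mem_univ a)).elim
  · intro hc
    exact (hc (Finset.mem_univ b)).elim

/-- a new replica is independent of the others -/
theorem GM.avR_option (hG : GM μ S M0) (k : ℝ) (h : (R → Ω) → ℝ) (g : Ω → ℝ) (u : ι → ℝ) :
    avR μ k S (Option R) (fun w => h (fun a => w (some a)) * g (w none)) u =
      avR μ k S R h u * avm μ k S g u := by
  have i1 := hG.gm_prob k u
  rw [hG.avR_eq, hG.avR_eq, hG.avm_eq, ← integral_prod_mul,
    ← Measure.pi_map_piOptionEquivProd (fun _ : Option R => gm μ k S u),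
    integral_map_equiv]
  rfl

/-! ### bounded measurable functions of the replicas -/

section bm

variable {h : (R → Ω) → ℝ} {g : Ω → ℝ}

lemma Bm.at (a : R) (hg : Bm g) : Bm fun w : R → Ω => g (w a) := by
  obtain ⟨C, _, hb⟩ := hg.2
  exact Bm.of (hg.1.comp (measurable_pi_apply a)) fun w => hb (w a)

lemma Bm.marg (f : R → R') (hh : Bm h) : Bm fun w : R' → Ω => h fun a => w (f a) := by
  obtain ⟨C, _, hb⟩ := hh.2
  exact Bm.of (hh.1.comp (measurable_pi_lambda _ fun a => measurable_pi_apply _)) fun w => hb _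

lemma GM.bSR (hG : GM μ S M0) (e : ι) : Bm (SR R S e) := (hG.pi R).bS e

end bm

/-- the function of the replicas which appears in the derivative -/
def dR (S : ι → Ω → ℝ) (x : ℝ) (e : ι) (h : (R → Ω) → ℝ) (w : Option R → Ω) : ℝ :=
  h (fun a => w (some a)) * ((∑ a, S e (w (some a))) + (x - Fintype.card R) * S e (w none))

lemma GM.bdR (hG : GM μ S M0) (x : ℝ) (e : ι) {h : (R → Ω) → ℝ} (hh : Bm h) :
    Bm (dR S x e h) := by
  unfold dR
  exact (hh.marg some).mul ((Bm.sum _ fun a _ => (hG.bS e).at (some a)).add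
    (((hG.bS e).at none).const_mul _))

lemma GM.avR_dR (hG : GM μ S M0) (k x : ℝ) (e : ι) {h : (R → Ω) → ℝ} (hh : Bm h) (u : ι → ℝ) :
    avR μ k S (Option R) (dR S x e h) u = avR μ k S R (fun w => h w * SR R S e w) u +
      (x - Fintype.card R) * (avR μ k S R h u * avm μ k S (S e) u) := by
  have hP := hG.pi (Option R)
  have h1 : dR S x e h = fun w : Option R → Ω =>
      h (fun a => w (some a)) * SR R S e (fun a => w (some a)) +
        (x - Fintype.card R) * (h (fun a => w (some a)) * S e (w none)) := by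
    funext w
    unfold dR SR
    ring
  rw [h1]
  have e1 : avR μ k S (Option R) (fun w => h (fun a => w (some a)) *
      SR R S e (fun a => w (some a)) + (x - Fintype.card R) *
        (h (fun a => w (some a)) * S e (w none))) u =
      avR μ k S (Option R) (fun w => h (fun a => w (some a)) *
        SR R S e (fun a => w (some a))) u + (x - Fintype.card R) *
        avR μ k S (Option R) (fun w => h (fun a => w (some a)) * S e (w none)) u := by
    unfold avR
    rw [hP.av_add k ((hh.marg some).mul ((hG.bSR e).marg some))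
      (((hh.marg some).mul ((hG.bS e).at none)).const_mul _), av_mul]
  rw [e1, hG.avR_option k h (S e) u]
  congr 1
  exact hG.avR_marg k some (Option.some_injective R)
    (h := fun w => h w * SR R S e w) (hh.mul (hG.bSR e)).meas u

lemma GM.avR_SR (hG : GM μ S M0) (k : ℝ) (e : ι) (u : ι → ℝ) :
    avR μ k S R (SR R S e) u = Fintype.card R * avm μ k S (S e) u := by
  have h1 : avR μ k S R (SR R S e) u = ∑ a : R, avR μ k S R (fun w => S e (w a)) u := by
    unfold avR
    rw [← (hG.pi R).av_sum k _ fun a _ => (hG.bS e).at a]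
    rfl
  rw [h1]
  simp only [hG.avR_one]
  rw [Finset.sum_const, Finset.card_univ, nsmul_eq_mul]

/-- **The derivative of `Z^x ⟨h⟩` in the couplings.** -/
theorem GM.c2_ZavR (hG : GM μ S M0) (k x : ℝ) {h : (R → Ω) → ℝ} (hh : Bm h) :
    ∃ F2, H325.C2 (fun u => Zxm μ k S x u * avR μ k S R h u)
      (fun e u => k * (Zxm μ k S x u * avR μ k S (Option R) (dR S x e h) u)) F2 := by
  refine ⟨_, ((hG.c2_Zx k x).mul ((hG.pi R).c2_av k hh)).congr (fun u => rfl) (fun e u => ?_)
    (fun e u => rfl)⟩
  rw [hG.avR_dR k x e hh]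
  have h1 := hG.avR_SR (R := R) k e u
  unfold avR at h1 ⊢
  rw [h1]
  ring

/-- the derivative of `⟨h⟩` in the couplings -/
theorem GM.c2_avR (hG : GM μ S M0) (k : ℝ) {h : (R → Ω) → ℝ} (hh : Bm h) :
    ∃ F2, H325.C2 (avR μ k S R h)
      (fun e u => k * avR μ k S (Option R) (dR S 0 e h) u) F2 := by
  refine ⟨_, ((hG.pi R).c2_av k hh).congr (fun u => rfl) (fun e u => ?_) (fun e u => rfl)⟩
  rw [hG.avR_dR k 0 e hh]
  have h1 := hG.avR_SR (R := R) k e u
  unfold avR at h1 ⊢
  rw [h1]
  ring

lemma GM.eg_avR (hG : GM μ S M0) (k : ℝ) {h : (R → Ω) → ℝ} (hh : Bm h) :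
    EG (avR μ k S R h) := (hG.pi R).eg_av k hh

lemma GM.cont_avR (hG : GM μ S M0) (k : ℝ) {h : (R → Ω) → ℝ} (hh : Bm h) :
    Continuous (avR μ k S R h) := (hG.pi R).cont_av k hh

lemma GM.abs_avR_le (hG : GM μ S M0) (k : ℝ) {h : (R → Ω) → ℝ} (hm : Measurable h) {C : ℝ}
    (hC : ∀ w, |h w| ≤ C) (u : ι → ℝ) : |avR μ k S R h u| ≤ C := (hG.pi R).abs_av_le k hm hC u

/-! ### integration by parts -/

/-- the Gaussian law of the couplings -/
theorem GM.ibp (hG : GM μ S M0) (k x : ℝ) (e : ι) {h : (R → Ω) → ℝ} (hh : Bm h) :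
    ∫ u, u e * (Zxm μ k S x u * avR μ k S R h u) ∂(gI ι) =
      k * ∫ u, Zxm μ k S x u * avR μ k S (Option R) (dR S x e h) u ∂(gI ι) := by
  obtain ⟨F2, hc⟩ := hG.c2_ZavR k x hh
  rw [← integral_const_mul]
  exact (hc.pd0 e).stein hc.eg (hc.eg1 e)

lemma glue_update {K : Finset ι} {e : ι} (he : e ∉ K) (z w : ι → ℝ) (t : ℝ) :
    glue K z (Function.update w e t) = Function.update (glue K z w) e t := by
  funext j
  by_cases hj : j = e
  · subst hj
    rw [glue_not_mem he, Function.update_self, Function.update_self]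
  · rw [Function.update_of_ne hj]
    unfold glue
    rw [Function.update_of_ne hj]

lemma norm_glue_le (K : Finset ι) (z w : ι → ℝ) : ‖glue K z w‖ ≤ ‖z‖ + ‖w‖ := by
  refine (pi_norm_le_iff_of_nonneg (add_nonneg (norm_nonneg _) (norm_nonneg _))).2 fun e => ?_
  unfold glue
  split_ifs
  · exact (norm_le_pi_norm z e).trans (le_add_of_nonneg_right (norm_nonneg _))
  · exact (norm_le_pi_norm w e).trans (le_add_of_nonneg_left (norm_nonneg _))

lemma eg_glue {h : (ι → ℝ) → ℝ} (hh : EG h) (K : Finset ι) (z : ι → ℝ) :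
    EG fun w => h (glue K z w) := by
  obtain ⟨C, a, hC, ha, hb⟩ := hh.bdd
  refine ⟨hh.meas.comp (measurable_glue_right K z), C * Real.exp (a * ‖z‖), a, by positivity,
    ha, fun w => ?_⟩
  refine (hb _).trans ?_
  rw [mul_assoc, ← Real.exp_add, ← mul_add]
  exact mul_le_mul_of_nonneg_left (Real.exp_le_exp.2
    (mul_le_mul_of_nonneg_left (norm_glue_le K z w) ha)) hC

/-- **Conditional Gaussian integration by parts** (the coordinates in `K` are frozen). -/
lemma stein_glue {K : Finset ι} {e : ι} {H H' : (ι → ℝ) → ℝ} (hd : PD e H H') (hg : EG H)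
    (hg' : EG H') (he : e ∉ K) (z : ι → ℝ) :
    ∫ w, w e * H (glue K z w) ∂(gI ι) = ∫ w, H' (glue K z w) ∂(gI ι) := by
  have h1 : PD e (fun w => H (glue K z w)) (fun w => H' (glue K z w)) := by
    intro y x
    simp only [glue_update he]
    exact hd _ _
  exact h1.stein (eg_glue hg K z) (eg_glue hg' K z)

theorem GM.ibp_glue (hG : GM μ S M0) (k x : ℝ) {K : Finset ι} {e : ι} (he : e ∉ K)
    {h : (R → Ω) → ℝ} (hh : Bm h) (z : ι → ℝ) :
    ∫ w, w e * (Zxm μ k S x (glue K z w) * avR μ k S R h (glue K z w)) ∂(gI ι) =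
      k * ∫ w, Zxm μ k S x (glue K z w) *
        avR μ k S (Option R) (dR S x e h) (glue K z w) ∂(gI ι) := by
  obtain ⟨F2, hc⟩ := hG.c2_ZavR k x hh
  rw [← integral_const_mul]
  exact stein_glue (hc.pd0 e) hc.eg (hc.eg1 e) he z

/-- The law with the density `Z^x` given the coordinates in `K`: integration by parts. -/
theorem GM.ibp_cx (hG : GM μ S M0) (k x : ℝ) {K : Finset ι} {e : ι} (he : e ∉ K)
    {h : (R → Ω) → ℝ} (hh : Bm h) (z : ι → ℝ) :
    cx (fun _ : ι => gaussianReal 0 1) K (Zxm μ k S x) (fun u => u e * avR μ k S R h u) z =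
      k * cx (fun _ : ι => gaussianReal 0 1) K (Zxm μ k S x)
        (avR μ k S (Option R) (dR S x e h)) z := by
  unfold cx
  rw [← mul_div_assoc]
  congr 1
  rw [← hG.ibp_glue k x he hh z]
  refine integral_congr_ae (Filter.Eventually.of_forall fun w => ?_)
  simp only
  rw [glue_not_mem he]
  ring

/-- the law with the density `Z^x`: integration by parts -/
theorem GM.ibp_ex (hG : GM μ S M0) (k x : ℝ) (e : ι) {h : (R → Ω) → ℝ} (hh : Bm h) :
    ex (fun _ : ι => gaussianReal 0 1) (Zxm μ k S x) (fun u => u e * avR μ k S R h u) =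
      k * ex (fun _ : ι => gaussianReal 0 1) (Zxm μ k S x)
        (avR μ k S (Option R) (dR S x e h)) := by
  unfold ex
  rw [← mul_div_assoc]
  congr 1
  rw [← hG.ibp k x e hh]
  refine integral_congr_ae (Filter.Eventually.of_forall fun w => ?_)
  simp only
  ring

/-! ### the interface of the block conditioning -/

lemma GM.meas_Zx (hG : GM μ S M0) (k x : ℝ) : Measurable (Zxm μ k S x) :=
  (hG.cont_Zx k x).measurable

theorem GM.wt (hG : GM μ S M0) (k x : ℝ) :
    Wt (fun _ : ι => gaussianReal 0 1) (Zxm μ k S x) :=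
  ⟨Zxm_pos x, hG.meas_Zx k x, fun K z => (eg_glue (hG.eg_Zx k x) K z).integrable⟩

theorem GM.bm_avR (hG : GM μ S M0) (k : ℝ) {h : (R → Ω) → ℝ} (hh : Bm h) :
    BM (avR μ k S R h) := by
  obtain ⟨C, _, hb⟩ := hh.2
  exact ⟨(hG.cont_avR k hh).measurable, C, fun z => hG.abs_avR_le k hh.meas hb z⟩

theorem GM.bm_avm (hG : GM μ S M0) (k : ℝ) {h : Ω → ℝ} (hh : Bm h) : BM (avm μ k S h) := by
  obtain ⟨C, _, hb⟩ := hh.2
  exact ⟨(hG.cont_av k hh).measurable, C, fun z => hG.abs_av_le k hh.meas hb z⟩

end Vale.Agent.P146.H196
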