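import Vale.Agent.P146.Defs

set_option linter.all false

/-!
# P146: the mean and the standard deviation of the free energy
-/

open MeasureTheory ProbabilityTheory

namespace Vale.Agent.P146.H196

open Vale.Agent.P146

/-- The mean `E F_n` of the free energy. -/
noncomputable def meanF (n : ℕ) (β : ℝ) : ℝ := ∫ g, freeEnergy n β g ∂(disorder n)

/-- The standard deviation `(Var F_n)^(1/2)` of the free energy. -/
noncomputable def sdF (n : ℕ) (β : ℝ) : ℝ := √Var[freeEnergy n β; disorder n]

end Vale.Agent.P146.H196
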