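import Vale.Agent.P146.H178.Fin
import Vale.Agent.P146.H178.FinQ
import Vale.Agent.P146.R2.H533.Up2
import Vale.Agent.P146.R2.H533.VarPos
import Vale.Agent.P146.R2.H453.Lo3
import Vale.Agent.P146.H499.Bd17
import Vale.Agent.P146.H260.Dblc17
import Vale.Agent.P146.H519.Asym
import Vale.Agent.P146.H320.MomP

set_option linter.all false

/-!
# P146: order and law of the fluctuations, from the response

The conclusions of `H178.main` and `H178.mainQ` together with what is known about the law: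
* all limit laws of `(F_n - E F_n) / √Var F_n` have mean `0`, variance `1`, a log-concave density
  and a sub-Gaussian left tail;
* two-sided exponential tails at the scale of the standard deviation, and anticoncentration;
* the sharp large deviations above the mean for `x ≥ n ^ (-a)`, `a < 2 / 17`.
-/

open MeasureTheory ProbabilityTheory Filter Topology

namespace Vale.Agent.P146.H196.Un

open Vale.Agent.P146 Vale.Agent.P146.H605

/-- The Gaussian left tail at the scale of the standard deviation. -/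
theorem left_tail {β : ℝ} (hβ : β ≠ 0) {n : ℕ} (hn : 2 ≤ n) {u : ℝ} (hu : 0 ≤ u) :
    (disorder n).real {g | freeEnergy n β g ≤ ∫ h, freeEnergy n β h ∂(disorder n) -
      u * √Var[freeEnergy n β; disorder n]} ≤ Real.exp (-(u ^ 2 / 2)) :=
  R2.H533.gauss (by omega) (fun t ht x hx => R2.H453.Lo.sk_LB β (by omega) ht.1 ht.2 hx)
    (R2.H533.var_pos_of hn hβ fun x => Vale.Agent.P146.Sx.integrable_exp n β x) hu

/-- **The limit laws**, with the sub-Gaussian left tail. -/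
theorem limit_left {β : ℝ} (hβ : 1 < β) {N : ℕ → ℕ} (hN : Tendsto N atTop atTop) :
    ∃ (φ : ℕ → ℕ) (p : ℝ → ℝ), StrictMono φ ∧ (∀ x, 0 ≤ p x ∧ p x ≤ 145) ∧
      (∀ s t : ℝ, 0 < s → 0 < t → s + t = 1 → ∀ x y : ℝ,
        p x ^ s * p y ^ t ≤ p (s * x + t * y)) ∧
      ∫ x, p x = 1 ∧ ∫ x, x * p x = 0 ∧ ∫ x, x ^ 2 * p x = 1 ∧
      (∀ u : ℝ, 0 ≤ u → ∫ x in Set.Iic (-u), p x ≤ Real.exp (-(u ^ 2 / 2))) ∧
      ∀ f : ℝ → ℝ, Continuous f → (∃ C, ∀ x, |f x| ≤ C) →
        Tendsto (fun k => ∫ g, f ((freeEnergy (N (φ k)) β g -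
          ∫ h, freeEnergy (N (φ k)) β h ∂(disorder (N (φ k)))) /
            √Var[freeEnergy (N (φ k)) β; disorder (N (φ k))]) ∂(disorder (N (φ k))))
          atTop (𝓝 (∫ x, f x * p x)) := by
  obtain ⟨φ, p, h1, h2, h3, h4, h5, h6, h7⟩ := H695.limit_low hβ hN
  have hpi : Integrable p := by
    by_contra hc
    rw [integral_undef hc] at h4
    norm_num at h4
  refine ⟨φ, p, h1, h2, h3, h4, h5, h6, fun u hu => ?_, h7⟩
  -- first for `v < u`, with a continuous cut-off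
  have key : ∀ v : ℝ, 0 ≤ v → v < u → ∫ x in Set.Iic (-u), p x ≤ Real.exp (-(v ^ 2 / 2)) := by
    intro v hv hvu
    obtain ⟨f, hf⟩ : ∃ f : ℝ → ℝ, f = fun x => max 0 (min 1 ((-v - x) / (u - v))) := ⟨_, rfl⟩
    have huv : 0 < u - v := by linarith
    have hf0 : ∀ x, 0 ≤ f x := fun x => by rw [hf]; exact le_max_left _ _
    have hf1 : ∀ x, f x ≤ 1 := fun x => by
      rw [hf]
      exact max_le zero_le_one (min_le_left _ _)
    have hfc : Continuous f := by
      rw [hf]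
      fun_prop
    have hfu : ∀ x, x ≤ -u → f x = 1 := fun x hx => by
      rw [hf]
      have : 1 ≤ (-v - x) / (u - v) := by
        rw [le_div_iff₀ huv]
        linarith
      simp only
      rw [min_eq_left this]
      norm_num
    have hfv : ∀ x, -v < x → f x = 0 := fun x hx => by
      rw [hf]
      have : (-v - x) / (u - v) ≤ 0 := by
        rw [div_le_iff₀ huv]
        linarith
      simp only
      rw [min_eq_right (this.trans zero_le_one), max_eq_left this]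
    have ht := h7 f hfc ⟨1, fun x => by rw [abs_of_nonneg (hf0 x)]; exact hf1 x⟩
    have hle : ∀ᶠ k in atTop, ∫ g, f ((freeEnergy (N (φ k)) β g -
          ∫ h, freeEnergy (N (φ k)) β h ∂(disorder (N (φ k)))) /
            √Var[freeEnergy (N (φ k)) β; disorder (N (φ k))]) ∂(disorder (N (φ k))) ≤
        Real.exp (-(v ^ 2 / 2)) := by
      filter_upwards [(hN.comp h1.tendsto_atTop).eventually_ge_atTop 2] with k hk
      have hk' : 2 ≤ N (φ k) := hk
      obtain ⟨n, hn⟩ : ∃ n, n = N (φ k) := ⟨_, rfl⟩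
      rw [← hn] at hk' ⊢
      have hp : IsProbabilityMeasure (disorder n) := by
        unfold disorder
        infer_instance
      have hσ : 0 < √Var[freeEnergy n β; disorder n] :=
        Real.sqrt_pos.2 (R2.H533.var_pos_of hk' (by linarith) fun x =>
          Vale.Agent.P146.Sx.integrable_exp n β x)
      obtain ⟨E, hE⟩ : ∃ E : Set (Pair n → ℝ), E = {g | freeEnergy n β g ≤
          ∫ h, freeEnergy n β h ∂(disorder n) - v * √Var[freeEnergy n β; disorder n]} := ⟨_, rfl⟩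
      have hmeas : MeasurableSet E := by
        rw [hE]
        exact measurableSet_le (H863.cont_freeEnergy n β).measurable measurable_const
      have hb : ∀ g, f ((freeEnergy n β g - ∫ h, freeEnergy n β h ∂(disorder n)) /
          √Var[freeEnergy n β; disorder n]) ≤ E.indicator (fun _ => (1 : ℝ)) g := by
        intro g
        by_cases hg : freeEnergy n β g ≤
          ∫ h, freeEnergy n β h ∂(disorder n) - v * √Var[freeEnergy n β; disorder n]
        · have hg' : g ∈ E := by rw [hE]; exact hg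
          rw [Set.indicator_of_mem hg']
          exact hf1 _
        · have hg' : g ∉ E := by rw [hE]; exact hg
          rw [Set.indicator_of_notMem hg']
          refine le_of_eq (hfv _ ?_)
          rw [lt_div_iff₀ hσ]
          linarith [not_le.1 hg]
      have hi : Integrable (fun g => f ((freeEnergy n β g -
          ∫ h, freeEnergy n β h ∂(disorder n)) / √Var[freeEnergy n β; disorder n]))
            (disorder n) := by
        refine Integrable.of_bound ?_ 1 (Eventually.of_forall fun g => ?_)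
        · exact (hfc.comp (((H863.cont_freeEnergy n β).sub continuous_const).div_const
            _)).aestronglyMeasurable
        · rw [Real.norm_eq_abs, abs_of_nonneg (hf0 _)]
          exact hf1 _
      refine (integral_mono hi ((integrable_const (1 : ℝ)).indicator hmeas) hb).trans ?_
      rw [integral_indicator_const _ hmeas, smul_eq_mul, mul_one, hE]
      exact left_tail (by linarith) hk' hv
    have h8 := le_of_tendsto ht hle
    refine le_trans ?_ h8
    have hfp : Integrable fun x => f x * p x := by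
      refine hpi.bdd_mul hfc.aestronglyMeasurable (c := 1) (Eventually.of_forall fun x => ?_)
      rw [Real.norm_eq_abs, abs_of_nonneg (hf0 x)]
      exact hf1 x
    rw [← integral_indicator measurableSet_Iic]
    refine integral_mono (hpi.indicator measurableSet_Iic) hfp fun x => ?_
    by_cases hx : x ∈ Set.Iic (-u)
    · rw [Set.indicator_of_mem hx, hfu x hx, one_mul]
    · rw [Set.indicator_of_notMem hx]
      exact mul_nonneg (hf0 x) (h2 x).1
  rcases hu.eq_or_lt with rfl | hu0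
  · -- `u = 0`
    have : ∫ x in Set.Iic (-(0 : ℝ)), p x ≤ ∫ x, p x :=
      setIntegral_le_integral hpi (Eventually.of_forall fun x => (h2 x).1)
    rw [h4] at this
    simpa using this
  · have hc : Tendsto (fun v : ℝ => Real.exp (-(v ^ 2 / 2))) (𝓝[<] u)
        (𝓝 (Real.exp (-(u ^ 2 / 2)))) := by
      have : Continuous fun v : ℝ => Real.exp (-(v ^ 2 / 2)) := by fun_prop
      exact (this.tendsto u).mono_left nhdsWithin_le_nhds
    refine ge_of_tendsto hc ?_
    have h9 : ∀ᶠ v : ℝ in 𝓝[<] u, 0 < v := by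
      have : Set.Ioi (0 : ℝ) ∈ 𝓝 u := Ioi_mem_nhds hu0
      exact mem_nhdsWithin_of_mem_nhds this
    filter_upwards [h9, self_mem_nhdsWithin] with v hv0 hvu
    exact key v hv0.le hvu

/-- Tails and small balls at the scale of the standard deviation, for every `n`. -/
theorem scale {β : ℝ} (hβ : β ≠ 0) {n : ℕ} (hn : 2 ≤ n) :
    (∀ x : ℝ, 0 ≤ x → x * (18 * (1 + √Var[freeEnergy n β; disorder n])) ≤ 1 →
      ∫ g, Real.exp (x * |freeEnergy n β g - ∫ h, freeEnergy n β h ∂(disorder n)|)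
        ∂(disorder n) ≤ 7) ∧
    ∀ u : ℝ, 0 ≤ u →
      (disorder n).real {g | freeEnergy n β g ≤ ∫ h, freeEnergy n β h ∂(disorder n) -
        u * √Var[freeEnergy n β; disorder n]} ≤ Real.exp (-(u ^ 2 / 2)) ∧
      ∀ y : ℝ, (disorder n).real {g | |freeEnergy n β g - y| ≤ u} ≤
        2610 * (u + 1) / (1 + √Var[freeEnergy n β; disorder n]) :=
  ⟨fun _ h0 h1 => (H695.exp_abs n β h0 h1).2,
    fun _ hu => ⟨left_tail hβ hn hu, fun y => H655.anticoncentration n β y hu⟩⟩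

/-- The sharp moment law and the sharp right tail, above `n ^ (-2/17)`. -/
theorem sharp {β : ℝ} (hβ : 1 < β) :
    ∃ L p : ℝ, 0 < L ∧
      Tendsto (fun n : ℕ => (∫ g, freeEnergy n β g ∂(disorder n)) / n) atTop (𝓝 p) ∧
      ∀ ε : ℝ, 0 < ε → ∀ a : ℝ, a < 2 / 17 → ∃ δ : ℝ, 0 < δ ∧ ∀ᶠ n : ℕ in atTop,
        (∀ x : ℝ, (n : ℝ) ^ (-a) ≤ x → x ≤ δ →
          |Real.log (∫ g, Real.exp (x * (freeEnergy n β g - n * p)) ∂(disorder n)) -
            L * n * x ^ 6| ≤ ε * n * x ^ 6) ∧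
        (∀ s : ℝ, (n : ℝ) ^ (-(5 * a)) ≤ s → s ≤ δ →
          |Real.log ((disorder n).real {g | n * (p + s) ≤ freeEnergy n β g}) +
            5 / 6 * (6 * L) ^ (-(1 / 5) : ℝ) * n * s ^ (6 / 5 : ℝ)| ≤
              ε * n * s ^ (6 / 5 : ℝ)) := by
  obtain ⟨Λ, -, h⟩ := H499.T29.bounds17 fun β _ => H260.D17.dblc17 β
  obtain ⟨h0, p, D, h2, h3, -⟩ := h β hβ
  exact ⟨Λ β, p, h0, h2, h3⟩

end Vale.Agent.P146.H196.Un

namespace Vale.Agent.P146.H196

open Vale.Agent.P146 Vale.Agent.P146.H605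

/-- **Order and law of the fluctuations of the free energy, from the response.** -/
theorem union {β b₁ : ℝ} (hβ : 1 < β) (h0 : 0 < b₁) (h1 : b₁ < 2 / 17)
    (hR : H178.Resp b₁ (H877.At β)) :
    Tendsto (fun n : ℕ => Real.log (Var[freeEnergy n β; disorder n]) / Real.log n) atTop
      (𝓝 (1 / 3)) ∧
    (∀ ε : ℝ, 0 < ε → ∀ᶠ n : ℕ in atTop,
      (n : ℝ) ^ (1 / 3 - ε) ≤ Var[freeEnergy n β; disorder n] ∧
      Var[freeEnergy n β; disorder n] ≤ (n : ℝ) ^ (1 / 3 + ε) ∧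
      (disorder n).real {g | (n : ℝ) ^ (1 / 6 + ε) ≤
        |freeEnergy n β g - ∫ h, freeEnergy n β h ∂(disorder n)|} ≤
          Real.exp (-((n : ℝ) ^ (ε / 3))) ∧
      (∀ x : ℝ, (n : ℝ) ^ (-(1 / 6) + ε) ≤ x → x ≤ 1 →
        (n : ℝ) ^ (1 - ε) * x ^ 6 ≤ Real.log (∫ g, Real.exp (x * (freeEnergy n β g -
          ∫ h, freeEnergy n β h ∂(disorder n))) ∂(disorder n)) ∧
        Real.log (∫ g, Real.exp (x * (freeEnergy n β g -
          ∫ h, freeEnergy n β h ∂(disorder n))) ∂(disorder n)) ≤ (n : ℝ) ^ (1 + ε) * x ^ 6) ∧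
      (∃ t : ℝ, 0 ≤ t ∧ t < 1 ∧ (n : ℝ) ^ (1 / 3 - ε) ≤ n * (1 - t) * crossOverlap n β t) ∧
      (∀ t : ℝ, 0 ≤ t → t < 1 → n * (1 - t) * crossOverlap n β t ≤ (n : ℝ) ^ (1 / 3 + ε))) ∧
    (∀ κ c : ℝ, 0 ≤ κ → κ + c < 1 / 6 → ∀ᶠ n : ℕ in atTop, ∀ y : ℝ,
      (disorder n).real {g | |freeEnergy n β g - y| ≤ (n : ℝ) ^ κ} ≤ (n : ℝ) ^ (-c)) ∧
    (∃ δ : ℝ, 0 < δ ∧ ∀ ε : ℝ, 0 < ε → ∀ᶠ n : ℕ in atTop,
      ∀ s : ℝ, (n : ℝ) ^ (-(5 / 6) + ε : ℝ) ≤ s → s ≤ δ →
      Real.exp (-((n : ℝ) ^ (1 + ε) * s ^ (6 / 5 : ℝ))) ≤ (disorder n).real {g |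
        ∫ h, freeEnergy n β h ∂(disorder n) + n * s ≤ freeEnergy n β g} ∧
      (disorder n).real {g | ∫ h, freeEnergy n β h ∂(disorder n) + n * s ≤ freeEnergy n β g} ≤
        Real.exp (-((n : ℝ) ^ (1 - ε) * s ^ (6 / 5 : ℝ)))) ∧
    -- asymmetry
    (∀ ε : ℝ, 0 < ε → ∃ δ : ℝ, 0 < δ ∧ ∀ᶠ n : ℕ in atTop, ∀ u : ℝ,
      (n : ℝ) ^ ε ≤ u → u ≤ δ * (n : ℝ) ^ (5 / 6 - ε) →
        Real.exp (-((n : ℝ) ^ ε * u ^ (6 / 5 : ℝ))) ≤
          (disorder n).real {g | ∫ h, freeEnergy n β h ∂(disorder n) +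
            u * √(Var[freeEnergy n β; disorder n]) ≤ freeEnergy n β g} ∧
        (disorder n).real {g | freeEnergy n β g ≤ ∫ h, freeEnergy n β h ∂(disorder n) -
            u * √(Var[freeEnergy n β; disorder n])} ≤ Real.exp (-(u ^ 2 / 2)) ∧
        Real.exp (u ^ 2 / 4) * (disorder n).real {g | freeEnergy n β g ≤
            ∫ h, freeEnergy n β h ∂(disorder n) - u * √(Var[freeEnergy n β; disorder n])} ≤
          (disorder n).real {g | ∫ h, freeEnergy n β h ∂(disorder n) +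
            u * √(Var[freeEnergy n β; disorder n]) ≤ freeEnergy n β g}) ∧
    -- both sides, with constant probability
    (∀ ε : ℝ, 0 < ε → ∀ᶠ n : ℕ in atTop,
      1 / 10 ^ 10 ≤ (disorder n).real {g | ∫ h, freeEnergy n β h ∂(disorder n) +
        (n : ℝ) ^ (1 / 6 - ε) ≤ freeEnergy n β g} ∧
      1 / 10 ^ 10 ≤ (disorder n).real {g | freeEnergy n β g ≤
        ∫ h, freeEnergy n β h ∂(disorder n) - (n : ℝ) ^ (1 / 6 - ε)}) ∧
    -- all absolute moments
    (∀ p ε : ℝ, 0 < p → 0 < ε → ∀ᶠ n : ℕ in atTop,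
      (∀ y : ℝ, (n : ℝ) ^ (p * (1 / 6) - ε) ≤ ∫ g, |freeEnergy n β g - y| ^ p ∂(disorder n)) ∧
      ∫ g, |freeEnergy n β g - ∫ h, freeEnergy n β h ∂(disorder n)| ^ p ∂(disorder n) ≤
        (n : ℝ) ^ (p * (1 / 6) + ε)) ∧
    -- the limit laws of `(F_n - E F_n) / √Var F_n`
    (∀ N : ℕ → ℕ, Tendsto N atTop atTop →
      ∃ (φ : ℕ → ℕ) (p : ℝ → ℝ), StrictMono φ ∧ (∀ x, 0 ≤ p x ∧ p x ≤ 145) ∧
      (∀ s t : ℝ, 0 < s → 0 < t → s + t = 1 → ∀ x y : ℝ,
        p x ^ s * p y ^ t ≤ p (s * x + t * y)) ∧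
      ∫ x, p x = 1 ∧ ∫ x, x * p x = 0 ∧ ∫ x, x ^ 2 * p x = 1 ∧
      (∀ u : ℝ, 0 ≤ u → ∫ x in Set.Iic (-u), p x ≤ Real.exp (-(u ^ 2 / 2))) ∧
      ∀ f : ℝ → ℝ, Continuous f → (∃ C, ∀ x, |f x| ≤ C) →
        Tendsto (fun k => ∫ g, f ((freeEnergy (N (φ k)) β g -
          ∫ h, freeEnergy (N (φ k)) β h ∂(disorder (N (φ k)))) /
            √Var[freeEnergy (N (φ k)) β; disorder (N (φ k))]) ∂(disorder (N (φ k))))
          atTop (𝓝 (∫ x, f x * p x))) ∧
    -- tails and small balls at the scale of the standard deviation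
    (∀ n : ℕ, 2 ≤ n →
      (∀ x : ℝ, 0 ≤ x → x * (18 * (1 + √Var[freeEnergy n β; disorder n])) ≤ 1 →
        ∫ g, Real.exp (x * |freeEnergy n β g - ∫ h, freeEnergy n β h ∂(disorder n)|)
          ∂(disorder n) ≤ 7) ∧
      ∀ u : ℝ, 0 ≤ u →
        (disorder n).real {g | freeEnergy n β g ≤ ∫ h, freeEnergy n β h ∂(disorder n) -
          u * √Var[freeEnergy n β; disorder n]} ≤ Real.exp (-(u ^ 2 / 2)) ∧
        ∀ y : ℝ, (disorder n).real {g | |freeEnergy n β g - y| ≤ u} ≤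
          2610 * (u + 1) / (1 + √Var[freeEnergy n β; disorder n])) ∧
    -- the sharp moment law and the sharp right tail
    (∃ L p : ℝ, 0 < L ∧
      Tendsto (fun n : ℕ => (∫ g, freeEnergy n β g ∂(disorder n)) / n) atTop (𝓝 p) ∧
      ∀ ε : ℝ, 0 < ε → ∀ a : ℝ, a < 2 / 17 → ∃ δ : ℝ, 0 < δ ∧ ∀ᶠ n : ℕ in atTop,
        (∀ x : ℝ, (n : ℝ) ^ (-a) ≤ x → x ≤ δ →
          |Real.log (∫ g, Real.exp (x * (freeEnergy n β g - n * p)) ∂(disorder n)) -
            L * n * x ^ 6| ≤ ε * n * x ^ 6) ∧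
        (∀ s : ℝ, (n : ℝ) ^ (-(5 * a)) ≤ s → s ≤ δ →
          |Real.log ((disorder n).real {g | n * (p + s) ≤ freeEnergy n β g}) +
            5 / 6 * (6 * L) ^ (-(1 / 5) : ℝ) * n * s ^ (6 / 5 : ℝ)| ≤
              ε * n * s ^ (6 / 5 : ℝ))) := by
  obtain ⟨g1, g2, g3, g4⟩ := H178.main hβ h0 h1 hR
  have e1 : (2 * (1 / 6) : ℝ) = 1 / 3 := by norm_num
  obtain ⟨m1, m2⟩ := H320.MomP.order (β := β) (q := 1 / 6) (r := 1 / 6) (by norm_num)
    (by norm_num) (by rw [e1]; exact H178.lowV_of_resp hβ h0 h1 hR)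
    (fun ε hε => (g2 ε hε).mono fun n h => by rw [e1]; exact h.2.1)
  exact ⟨g1, g2, g3, g4, H519.asym hβ (H178.lob_of_resp hβ h0 h1 hR), m2, m1,
    fun _ hN => Un.limit_left hβ hN, fun n hn => Un.scale (by linarith) hn, Un.sharp hβ⟩

end Vale.Agent.P146.H196
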