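import Vale.Agent.P146.H196.UDefs
import Vale.Agent.P146.H196.Union
import Vale.Agent.P146.H762.SkewD
import Vale.Agent.P146.H762.OneSided

set_option linter.all false

/-!
# P146: order and law of the fluctuations, from the response (with names for mean and deviation)

`unionB` : everything that is proved about the order and the law of `F_n - E F_n`, as a function of
the response.
-/

open MeasureTheory ProbabilityTheory Filter Topology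

namespace Vale.Agent.P146.H196.Un

open Vale.Agent.P146 Vale.Agent.P146.H605

/-- The standard deviation tends to infinity. -/
theorem sd_top {β : ℝ} (hβ : 1 < β) :
    Tendsto (fun n : ℕ => √Var[freeEnergy n β; disorder n]) atTop atTop := by
  have h1 := H425.LowA.var_low H641.flat' hβ (1 / 16) (by norm_num)
  have h2 : Tendsto (fun n : ℕ => (n : ℝ) ^ (1 / 16 : ℝ)) atTop atTop :=
    (tendsto_rpow_atTop (by norm_num)).comp tendsto_natCast_atTop_atTop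
  have h3 : Tendsto (fun n : ℕ => Var[freeEnergy n β; disorder n]) atTop atTop :=
    tendsto_atTop_mono' _ (h1.mono fun n hn => hn.1) h2
  exact Real.tendsto_sqrt_atTop.comp h3

/-- **The limit laws of `(F_n - E F_n) / (Var F_n)^(1/2)`.** -/
theorem limit_all {β : ℝ} (hβ : 1 < β) {N : ℕ → ℕ} (hN : Tendsto N atTop atTop) :
    ∃ (φ : ℕ → ℕ) (p : ℝ → ℝ), StrictMono φ ∧ (∀ x, 0 ≤ p x ∧ p x ≤ 145) ∧
      (∀ s t : ℝ, 0 < s → 0 < t → s + t = 1 → ∀ x y : ℝ,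
        p x ^ s * p y ^ t ≤ p (s * x + t * y)) ∧
      ∫ x, p x = 1 ∧ ∫ x, x * p x = 0 ∧ ∫ x, x ^ 2 * p x = 1 ∧
      (Integrable (fun x => x ^ 3 * p x) ∧ 0 ≤ ∫ x, x ^ 3 * p x) ∧
      (∀ u : ℝ, 0 ≤ u → ∫ x in Set.Iic (-u), p x ≤ Real.exp (-(u ^ 2 / 2))) ∧
      (∀ u : ℝ, 0 ≤ u → Integrable (fun x => Real.exp (-(u * x)) * p x) ∧
        ∫ x, Real.exp (-(u * x)) * p x ≤ Real.exp (u ^ 2 / 2)) ∧
      (∀ u : ℝ, 0 ≤ u → u < 1 / 36 → Integrable (fun x => Real.exp (u * x) * p x) ∧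
        Real.exp (u ^ 2 / 2) ≤ ∫ x, Real.exp (u * x) * p x ∧
        ∫ x, Real.exp (u * x) * p x ≤ 7 / 2) ∧
      ∀ f : ℝ → ℝ, Continuous f → (∃ C, ∀ x, |f x| ≤ C) →
        Tendsto (fun k => ∫ g, f ((freeEnergy (N (φ k)) β g - meanF (N (φ k)) β) /
          sdF (N (φ k)) β) ∂(disorder (N (φ k)))) atTop (𝓝 (∫ x, f x * p x)) := by
  obtain ⟨φ, p, h1, h2, h3, h4, h5, h6, hu, h7⟩ := limit_left hβ hN
  obtain ⟨g1, g2, g3, g4⟩ := H762.post_lim (M := fun k => N (φ k))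
    ((sd_top hβ).comp (hN.comp h1.tendsto_atTop)) (fun x => (h2 x).1) h4 h5 h6 h7
  exact ⟨φ, p, h1, h2, h3, h4, h5, h6, ⟨g3, g4⟩, hu, g1, g2, h7⟩

end Vale.Agent.P146.H196.Un

namespace Vale.Agent.P146.H196

open Vale.Agent.P146 Vale.Agent.P146.H605

/-- **Order and law of the fluctuations of the free energy, from the response.** -/
theorem unionB {β b₁ : ℝ} (hβ : 1 < β) (h0 : 0 < b₁) (h1 : b₁ < 2 / 17)
    (hR : H178.Resp b₁ (H877.At β)) :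
    -- the exponent of the variance
    Tendsto (fun n : ℕ => Real.log (Var[freeEnergy n β; disorder n]) / Real.log n) atTop
      (𝓝 (1 / 3)) ∧
    (∀ ε : ℝ, 0 < ε → ∀ᶠ n : ℕ in atTop,
      (n : ℝ) ^ (1 / 3 - ε) ≤ Var[freeEnergy n β; disorder n] ∧
      Var[freeEnergy n β; disorder n] ≤ (n : ℝ) ^ (1 / 3 + ε) ∧
      -- both sides, with constant probability
      1 / 10 ^ 10 ≤ (disorder n).real {g | meanF n β + (n : ℝ) ^ (1 / 6 - ε) ≤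
        freeEnergy n β g} ∧
      1 / 10 ^ 10 ≤ (disorder n).real {g | freeEnergy n β g ≤
        meanF n β - (n : ℝ) ^ (1 / 6 - ε)} ∧
      -- large fluctuations
      (disorder n).real {g | (n : ℝ) ^ (1 / 6 + ε) ≤ |freeEnergy n β g - meanF n β|} ≤
        Real.exp (-((n : ℝ) ^ (ε / 3))) ∧
      -- the exponential moments
      (∀ x : ℝ, (n : ℝ) ^ (-(1 / 6) + ε) ≤ x → x ≤ 1 →
        (n : ℝ) ^ (1 - ε) * x ^ 6 ≤
          Real.log (∫ g, Real.exp (x * (freeEnergy n β g - meanF n β)) ∂(disorder n)) ∧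
        Real.log (∫ g, Real.exp (x * (freeEnergy n β g - meanF n β)) ∂(disorder n)) ≤
          (n : ℝ) ^ (1 + ε) * x ^ 6) ∧
      -- chaos
      (∃ t : ℝ, 0 ≤ t ∧ t < 1 ∧ (n : ℝ) ^ (1 / 3 - ε) ≤ n * (1 - t) * crossOverlap n β t) ∧
      (∀ t : ℝ, 0 ≤ t → t < 1 → n * (1 - t) * crossOverlap n β t ≤ (n : ℝ) ^ (1 / 3 + ε))) ∧
    -- all moments
    (∀ p ε : ℝ, 0 < p → 0 < ε → ∀ᶠ n : ℕ in atTop,
      (∀ y : ℝ, (n : ℝ) ^ (p / 6 - ε) ≤ ∫ g, |freeEnergy n β g - y| ^ p ∂(disorder n)) ∧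
      (n : ℝ) ^ (p / 6 - ε) ≤ ∫ g, (max (freeEnergy n β g - meanF n β) 0) ^ p ∂(disorder n) ∧
      (n : ℝ) ^ (p / 6 - ε) ≤ ∫ g, (max (meanF n β - freeEnergy n β g) 0) ^ p ∂(disorder n) ∧
      ∫ g, |freeEnergy n β g - meanF n β| ^ p ∂(disorder n) ≤ (n : ℝ) ^ (p / 6 + ε)) ∧
    -- small balls
    (∀ κ c : ℝ, 0 ≤ κ → κ + c < 1 / 6 → ∀ᶠ n : ℕ in atTop, ∀ y : ℝ,
      (disorder n).real {g | |freeEnergy n β g - y| ≤ (n : ℝ) ^ κ} ≤ (n : ℝ) ^ (-c)) ∧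
    -- the right tail
    (∃ δ : ℝ, 0 < δ ∧ ∀ ε : ℝ, 0 < ε → ∀ᶠ n : ℕ in atTop,
      ∀ s : ℝ, (n : ℝ) ^ (-(5 / 6) + ε : ℝ) ≤ s → s ≤ δ →
      Real.exp (-((n : ℝ) ^ (1 + ε) * s ^ (6 / 5 : ℝ))) ≤
        (disorder n).real {g | meanF n β + n * s ≤ freeEnergy n β g} ∧
      (disorder n).real {g | meanF n β + n * s ≤ freeEnergy n β g} ≤
        Real.exp (-((n : ℝ) ^ (1 - ε) * s ^ (6 / 5 : ℝ)))) ∧
    -- asymmetry
    (∀ ε : ℝ, 0 < ε → ∃ δ : ℝ, 0 < δ ∧ ∀ᶠ n : ℕ in atTop, ∀ u : ℝ,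
      (n : ℝ) ^ ε ≤ u → u ≤ δ * (n : ℝ) ^ (5 / 6 - ε) →
        Real.exp (-((n : ℝ) ^ ε * u ^ (6 / 5 : ℝ))) ≤
          (disorder n).real {g | meanF n β + u * sdF n β ≤ freeEnergy n β g} ∧
        Real.exp (u ^ 2 / 4) * (disorder n).real {g | freeEnergy n β g ≤
          meanF n β - u * sdF n β} ≤
            (disorder n).real {g | meanF n β + u * sdF n β ≤ freeEnergy n β g}) ∧
    -- the limit laws of `(F_n - E F_n) / (Var F_n)^(1/2)`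
    (∀ N : ℕ → ℕ, Tendsto N atTop atTop →
      ∃ (φ : ℕ → ℕ) (p : ℝ → ℝ), StrictMono φ ∧ (∀ x, 0 ≤ p x ∧ p x ≤ 145) ∧
      (∀ s t : ℝ, 0 < s → 0 < t → s + t = 1 → ∀ x y : ℝ,
        p x ^ s * p y ^ t ≤ p (s * x + t * y)) ∧
      ∫ x, p x = 1 ∧ ∫ x, x * p x = 0 ∧ ∫ x, x ^ 2 * p x = 1 ∧
      (Integrable (fun x => x ^ 3 * p x) ∧ 0 ≤ ∫ x, x ^ 3 * p x) ∧
      (∀ u : ℝ, 0 ≤ u → ∫ x in Set.Iic (-u), p x ≤ Real.exp (-(u ^ 2 / 2))) ∧
      (∀ u : ℝ, 0 ≤ u → Integrable (fun x => Real.exp (-(u * x)) * p x) ∧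
        ∫ x, Real.exp (-(u * x)) * p x ≤ Real.exp (u ^ 2 / 2)) ∧
      (∀ u : ℝ, 0 ≤ u → u < 1 / 36 → Integrable (fun x => Real.exp (u * x) * p x) ∧
        Real.exp (u ^ 2 / 2) ≤ ∫ x, Real.exp (u * x) * p x ∧
        ∫ x, Real.exp (u * x) * p x ≤ 7 / 2) ∧
      ∀ f : ℝ → ℝ, Continuous f → (∃ C, ∀ x, |f x| ≤ C) →
        Tendsto (fun k => ∫ g, f ((freeEnergy (N (φ k)) β g - meanF (N (φ k)) β) /
          sdF (N (φ k)) β) ∂(disorder (N (φ k)))) atTop (𝓝 (∫ x, f x * p x))) ∧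
    -- every `n`, at the scale of the standard deviation
    (∀ n : ℕ, 2 ≤ n →
      (∀ x : ℝ, 0 ≤ x → x * (18 * (1 + sdF n β)) ≤ 1 →
        ∫ g, Real.exp (x * |freeEnergy n β g - meanF n β|) ∂(disorder n) ≤ 7) ∧
      (∀ u : ℝ, 0 ≤ u →
        (disorder n).real {g | freeEnergy n β g ≤ meanF n β - u * sdF n β} ≤
          Real.exp (-(u ^ 2 / 2)) ∧
        ∀ y : ℝ, (disorder n).real {g | |freeEnergy n β g - y| ≤ u} ≤
          2610 * (u + 1) / (1 + sdF n β)) ∧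
      -- comparison with the Gaussian law
      (∀ x : ℝ, 0 ≤ x →
        ∫ g, Real.exp (-(x * (freeEnergy n β g - meanF n β))) ∂(disorder n) ≤
          Real.exp (x ^ 2 / 2 * Var[freeEnergy n β; disorder n]) ∧
        Real.exp (x ^ 2 / 2 * Var[freeEnergy n β; disorder n]) ≤
          ∫ g, Real.exp (x * (freeEnergy n β g - meanF n β)) ∂(disorder n)) ∧
      0 ≤ ∫ g, (freeEnergy n β g - meanF n β) ^ 3 ∂(disorder n)) ∧
    -- the sharp moment law and the sharp right tail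
    (∃ L p : ℝ, 0 < L ∧ Tendsto (fun n : ℕ => meanF n β / n) atTop (𝓝 p) ∧
      ∀ ε : ℝ, 0 < ε → ∀ a : ℝ, a < 2 / 17 → ∃ δ : ℝ, 0 < δ ∧ ∀ᶠ n : ℕ in atTop,
        (∀ x : ℝ, (n : ℝ) ^ (-a) ≤ x → x ≤ δ →
          |Real.log (∫ g, Real.exp (x * (freeEnergy n β g - n * p)) ∂(disorder n)) -
            L * n * x ^ 6| ≤ ε * n * x ^ 6) ∧
        (∀ s : ℝ, (n : ℝ) ^ (-(5 * a)) ≤ s → s ≤ δ →
          |Real.log ((disorder n).real {g | n * (p + s) ≤ freeEnergy n β g}) +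
            5 / 6 * (6 * L) ^ (-(1 / 5) : ℝ) * n * s ^ (6 / 5 : ℝ)| ≤
              ε * n * s ^ (6 / 5 : ℝ))) := by
  obtain ⟨g1, g2, g3, g4⟩ := H178.main hβ h0 h1 hR
  have e1 : (2 * (1 / 6) : ℝ) = 1 / 3 := by norm_num
  have hV := H178.lowV_of_resp hβ h0 h1 hR
  obtain ⟨m1, m2⟩ := H320.MomP.order (β := β) (q := 1 / 6) (r := 1 / 6) (by norm_num)
    (by norm_num) (by rw [e1]; exact hV)
    (fun ε hε => (g2 ε hε).mono fun n h => by rw [e1]; exact h.2.1)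
  have hA := H519.asym hβ (H178.lob_of_resp hβ h0 h1 hR)
  have hS : ∀ ε : ℝ, 0 < ε → ∀ᶠ n : ℕ in atTop,
      (n : ℝ) ^ (-ε) ≤ (disorder n).real {g |
        freeEnergy n β g ≤ ∫ h, freeEnergy n β h ∂(disorder n) - (n : ℝ) ^ (1 / 6 - ε)} ∧
      (n : ℝ) ^ (-ε) ≤ (disorder n).real {g |
        ∫ h, freeEnergy n β h ∂(disorder n) + (n : ℝ) ^ (1 / 6 - ε) ≤ freeEnergy n β g} := by
    intro ε hε
    filter_upwards [m2 ε hε, H320.MomP.pow_ev hε (10 ^ 10), eventually_gt_atTop 0] with n h1 h2 h3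
    have hn : (0 : ℝ) < n := by exact_mod_cast h3
    have h4 : (n : ℝ) ^ (-ε) ≤ 1 / 10 ^ 10 := by
      rw [Real.rpow_neg hn.le, ← one_div]
      exact one_div_le_one_div_of_le (by norm_num) h2
    exact ⟨h4.trans h1.2, h4.trans h1.1⟩
  have hO := H762.one_sided_sixth hS (fun ε hε => (g2 ε hε).mono fun n h => h.2.1)
  refine ⟨g1, fun ε hε => ?_, fun p ε hp hε => ?_, g3, g4, fun ε hε => ?_,
    fun N hN => Un.limit_all hβ hN, fun n hn => ?_, Un.sharp hβ⟩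
  · filter_upwards [g2 ε hε, m2 ε hε] with n a b
    exact ⟨a.1, a.2.1, b.1, b.2, a.2.2⟩
  · have e2 : p * (1 / 6) = p / 6 := by ring
    have hm := m1 p ε hp hε
    rw [e2] at hm
    filter_upwards [hm, hO p hp ε hε] with n a b
    exact ⟨a.1, b.1, b.2.2.1, a.2⟩
  · obtain ⟨δ, hδ, h⟩ := hA ε hε
    refine ⟨δ, hδ, h.mono fun n hn u hu hu' => ?_⟩
    exact ⟨(hn u hu hu').1, (hn u hu hu').2.2⟩
  · obtain ⟨s1, s2⟩ := Un.scale (β := β) (by linarith) hn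
    obtain ⟨c1, c2⟩ := H762.gauss_compare n (by omega) β
    exact ⟨s1, s2, c1, c2⟩

end Vale.Agent.P146.H196
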