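import Vale.Agent.P146.H196.UnionB

set_option linter.all false

/-!
# P146: order and law of the fluctuations, from the response: only what is not in earlier files

`unionC` is `unionB` without the clauses which are known from earlier files (the exponential
moments and small balls at the scale of the standard deviation, the Gaussian left tail, and the
sharp constants above `n ^ (-2/17)`).
-/

open MeasureTheory ProbabilityTheory Filter Topology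

namespace Vale.Agent.P146.H196

open Vale.Agent.P146 Vale.Agent.P146.H605

/-- **Order and law of the fluctuations of the free energy, from the response.** -/
theorem unionC {β b₁ : ℝ} (hβ : 1 < β) (h0 : 0 < b₁) (h1 : b₁ < 2 / 17)
    (hR : H178.Resp b₁ (H877.At β)) :
    -- the exponent of the variance
    Tendsto (fun n : ℕ => Real.log (Var[freeEnergy n β; disorder n]) / Real.log n) atTop
      (𝓝 (1 / 3)) ∧
    (∀ ε : ℝ, 0 < ε → ∀ᶠ n : ℕ in atTop,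
      (n : ℝ) ^ (1 / 3 - ε) ≤ Var[freeEnergy n β; disorder n] ∧
      Var[freeEnergy n β; disorder n] ≤ (n : ℝ) ^ (1 / 3 + ε) ∧
      -- both sides, with constant probability
      1 / 10 ^ 10 ≤ (disorder n).real {g | meanF n β + (n : ℝ) ^ (1 / 6 - ε) ≤
        freeEnergy n β g} ∧
      1 / 10 ^ 10 ≤ (disorder n).real {g | freeEnergy n β g ≤
        meanF n β - (n : ℝ) ^ (1 / 6 - ε)} ∧
      -- large fluctuations
      (disorder n).real {g | (n : ℝ) ^ (1 / 6 + ε) ≤ |freeEnergy n β g - meanF n β|} ≤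
        Real.exp (-((n : ℝ) ^ (ε / 3))) ∧
      -- the exponential moments
      (∀ x : ℝ, (n : ℝ) ^ (-(1 / 6) + ε) ≤ x → x ≤ 1 →
        (n : ℝ) ^ (1 - ε) * x ^ 6 ≤
          Real.log (∫ g, Real.exp (x * (freeEnergy n β g - meanF n β)) ∂(disorder n)) ∧
        Real.log (∫ g, Real.exp (x * (freeEnergy n β g - meanF n β)) ∂(disorder n)) ≤
          (n : ℝ) ^ (1 + ε) * x ^ 6) ∧
      -- chaos
      (∃ t : ℝ, 0 ≤ t ∧ t < 1 ∧ (n : ℝ) ^ (1 / 3 - ε) ≤ n * (1 - t) * crossOverlap n β t) ∧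
      (∀ t : ℝ, 0 ≤ t → t < 1 → n * (1 - t) * crossOverlap n β t ≤ (n : ℝ) ^ (1 / 3 + ε))) ∧
    -- all moments
    (∀ p ε : ℝ, 0 < p → 0 < ε → ∀ᶠ n : ℕ in atTop,
      (∀ y : ℝ, (n : ℝ) ^ (p / 6 - ε) ≤ ∫ g, |freeEnergy n β g - y| ^ p ∂(disorder n)) ∧
      (n : ℝ) ^ (p / 6 - ε) ≤ ∫ g, (max (freeEnergy n β g - meanF n β) 0) ^ p ∂(disorder n) ∧
      (n : ℝ) ^ (p / 6 - ε) ≤ ∫ g, (max (meanF n β - freeEnergy n β g) 0) ^ p ∂(disorder n) ∧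
      ∫ g, |freeEnergy n β g - meanF n β| ^ p ∂(disorder n) ≤ (n : ℝ) ^ (p / 6 + ε)) ∧
    -- small balls
    (∀ κ c : ℝ, 0 ≤ κ → κ + c < 1 / 6 → ∀ᶠ n : ℕ in atTop, ∀ y : ℝ,
      (disorder n).real {g | |freeEnergy n β g - y| ≤ (n : ℝ) ^ κ} ≤ (n : ℝ) ^ (-c)) ∧
    -- the right tail
    (∃ δ : ℝ, 0 < δ ∧ ∀ ε : ℝ, 0 < ε → ∀ᶠ n : ℕ in atTop,
      ∀ s : ℝ, (n : ℝ) ^ (-(5 / 6) + ε : ℝ) ≤ s → s ≤ δ →
      Real.exp (-((n : ℝ) ^ (1 + ε) * s ^ (6 / 5 : ℝ))) ≤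
        (disorder n).real {g | meanF n β + n * s ≤ freeEnergy n β g} ∧
      (disorder n).real {g | meanF n β + n * s ≤ freeEnergy n β g} ≤
        Real.exp (-((n : ℝ) ^ (1 - ε) * s ^ (6 / 5 : ℝ)))) ∧
    -- asymmetry
    (∀ ε : ℝ, 0 < ε → ∃ δ : ℝ, 0 < δ ∧ ∀ᶠ n : ℕ in atTop, ∀ u : ℝ,
      (n : ℝ) ^ ε ≤ u → u ≤ δ * (n : ℝ) ^ (5 / 6 - ε) →
        Real.exp (-((n : ℝ) ^ ε * u ^ (6 / 5 : ℝ))) ≤
          (disorder n).real {g | meanF n β + u * sdF n β ≤ freeEnergy n β g} ∧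
        Real.exp (u ^ 2 / 4) * (disorder n).real {g | freeEnergy n β g ≤
          meanF n β - u * sdF n β} ≤
            (disorder n).real {g | meanF n β + u * sdF n β ≤ freeEnergy n β g}) ∧
    -- the limit laws of `(F_n - E F_n) / (Var F_n)^(1/2)`
    (∀ N : ℕ → ℕ, Tendsto N atTop atTop →
      ∃ (φ : ℕ → ℕ) (p : ℝ → ℝ), StrictMono φ ∧ (∀ x, 0 ≤ p x ∧ p x ≤ 145) ∧
      (∀ s t : ℝ, 0 < s → 0 < t → s + t = 1 → ∀ x y : ℝ,
        p x ^ s * p y ^ t ≤ p (s * x + t * y)) ∧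
      ∫ x, p x = 1 ∧ ∫ x, x * p x = 0 ∧ ∫ x, x ^ 2 * p x = 1 ∧
      (Integrable (fun x => x ^ 3 * p x) ∧ 0 ≤ ∫ x, x ^ 3 * p x) ∧
      (∀ u : ℝ, 0 ≤ u → ∫ x in Set.Iic (-u), p x ≤ Real.exp (-(u ^ 2 / 2))) ∧
      (∀ u : ℝ, 0 ≤ u → Integrable (fun x => Real.exp (-(u * x)) * p x) ∧
        ∫ x, Real.exp (-(u * x)) * p x ≤ Real.exp (u ^ 2 / 2)) ∧
      (∀ u : ℝ, 0 ≤ u → u < 1 / 36 → Integrable (fun x => Real.exp (u * x) * p x) ∧
        Real.exp (u ^ 2 / 2) ≤ ∫ x, Real.exp (u * x) * p x ∧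
        ∫ x, Real.exp (u * x) * p x ≤ 7 / 2) ∧
      ∀ f : ℝ → ℝ, Continuous f → (∃ C, ∀ x, |f x| ≤ C) →
        Tendsto (fun k => ∫ g, f ((freeEnergy (N (φ k)) β g - meanF (N (φ k)) β) /
          sdF (N (φ k)) β) ∂(disorder (N (φ k)))) atTop (𝓝 (∫ x, f x * p x))) ∧
    -- comparison with the Gaussian law of the same variance, for every `n`
    (∀ n : ℕ, 2 ≤ n →
      (∀ x : ℝ, 0 ≤ x →
        ∫ g, Real.exp (-(x * (freeEnergy n β g - meanF n β))) ∂(disorder n) ≤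
          Real.exp (x ^ 2 / 2 * Var[freeEnergy n β; disorder n]) ∧
        Real.exp (x ^ 2 / 2 * Var[freeEnergy n β; disorder n]) ≤
          ∫ g, Real.exp (x * (freeEnergy n β g - meanF n β)) ∂(disorder n)) ∧
      0 ≤ ∫ g, (freeEnergy n β g - meanF n β) ^ 3 ∂(disorder n)) := by
  obtain ⟨g1, g2, g3, g4, g5, g6, g7, g8, -⟩ := unionB hβ h0 h1 hR
  exact ⟨g1, g2, g3, g4, g5, g6, g7, fun n hn => (g8 n hn).2.2⟩

end Vale.Agent.P146.H196
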